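import Vale.Agent.Lib.P329.helper28.TwoDefs
import Vale.Agent.Lib.P329.helper28.CertTwoA

/-!
# P329 (helper28): three counter-free two-layer automata with multiplier `3`

Each check runs over the full list of the transformations of the eleven states (ten states and
the sink `10`) generated by the two letters.
-/

namespace Vale.Agent.Lib.P329.helper28

open Vale.Agent.Lib.P329 Vale.Agent.Lib.P329.helper24

def gen3a : List (List ℕ) := [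
  [1, 4, 2, 10, 3, 10, 3, 1, 4, 2, 10], [9, 8, 7, 6, 5, 1, 10, 4, 3, 2, 10], [0, 1, 2, 3, 4, 5, 6, 7, 8, 9, 10]]

def mon3a : List (List ℕ) := [
  [0, 1, 2, 3, 4, 5, 6, 7, 8, 9, 10], [1, 4, 2, 10, 3, 10, 3, 1, 4, 2, 10], [9, 8, 7, 6, 5, 1, 10, 4, 3, 2, 10],
  [4, 3, 2, 10, 10, 10, 10, 4, 3, 2, 10], [8, 5, 7, 10, 6, 10, 6, 8, 5, 7, 10], [2, 4, 1, 3, 10, 4, 10, 3, 10, 2, 10],
  [2, 3, 4, 10, 1, 8, 10, 5, 6, 7, 10], [3, 10, 2, 10, 10, 10, 10, 3, 10, 2, 10], [5, 6, 7, 10, 10, 10, 10, 5, 6, 7, 10],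
  [4, 10, 1, 10, 3, 10, 3, 4, 10, 1, 10], [3, 1, 4, 10, 10, 10, 10, 3, 1, 4, 10], [2, 3, 4, 10, 10, 3, 10, 10, 10, 2, 10],
  [7, 5, 8, 6, 10, 5, 10, 6, 10, 7, 10], [2, 10, 3, 10, 4, 4, 10, 10, 3, 1, 10], [7, 6, 5, 10, 8, 3, 10, 1, 10, 4, 10],
  [10, 10, 2, 10, 10, 10, 10, 10, 10, 2, 10], [6, 10, 7, 10, 10, 10, 10, 6, 10, 7, 10], [10, 3, 1, 10, 10, 10, 10, 10, 3, 1, 10],
  [1, 10, 4, 10, 10, 10, 10, 1, 10, 4, 10], [3, 10, 4, 10, 10, 10, 10, 3, 10, 4, 10], [5, 10, 8, 10, 6, 10, 6, 5, 10, 8, 10],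
  [10, 4, 3, 10, 10, 10, 10, 10, 4, 3, 10], [6, 8, 5, 10, 10, 10, 10, 6, 8, 5, 10], [2, 10, 3, 10, 10, 10, 10, 10, 10, 2, 10],
  [7, 6, 5, 10, 10, 6, 10, 10, 10, 7, 10], [1, 10, 4, 3, 10, 10, 10, 3, 10, 1, 10], [4, 1, 3, 10, 10, 1, 10, 10, 10, 4, 10],
  [2, 10, 10, 10, 3, 3, 10, 10, 10, 4, 10], [7, 10, 6, 10, 5, 5, 10, 10, 6, 8, 10], [1, 3, 10, 10, 4, 10, 10, 4, 10, 3, 10],
  [4, 10, 1, 10, 3, 6, 10, 8, 10, 5, 10], [10, 10, 7, 10, 10, 10, 10, 10, 10, 7, 10], [3, 10, 1, 10, 10, 10, 10, 3, 10, 1, 10],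
  [10, 10, 4, 10, 10, 10, 10, 10, 10, 4, 10], [10, 6, 8, 10, 10, 10, 10, 10, 6, 8, 10], [4, 10, 3, 10, 10, 10, 10, 4, 10, 3, 10],
  [8, 10, 5, 10, 10, 10, 10, 8, 10, 5, 10], [10, 10, 3, 10, 10, 10, 10, 10, 10, 3, 10], [6, 10, 5, 10, 10, 10, 10, 6, 10, 5, 10],
  [10, 10, 4, 10, 3, 10, 3, 10, 10, 4, 10], [1, 10, 3, 10, 10, 10, 10, 1, 10, 3, 10], [10, 3, 10, 10, 10, 10, 10, 10, 3, 10, 10],
  [10, 5, 6, 10, 10, 10, 10, 10, 5, 6, 10], [3, 4, 10, 10, 10, 10, 10, 3, 4, 10, 10], [2, 10, 10, 10, 10, 10, 10, 10, 10, 2, 10],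
  [7, 10, 6, 10, 10, 10, 10, 10, 10, 7, 10], [1, 3, 10, 10, 10, 3, 10, 10, 10, 1, 10], [4, 10, 1, 10, 10, 10, 10, 10, 10, 4, 10],
  [4, 10, 3, 10, 10, 10, 10, 10, 10, 4, 10], [8, 10, 5, 6, 10, 10, 10, 6, 10, 8, 10], [3, 4, 10, 10, 10, 4, 10, 10, 10, 3, 10],
  [5, 8, 6, 10, 10, 8, 10, 10, 10, 5, 10], [2, 10, 10, 10, 10, 10, 10, 10, 10, 3, 10], [7, 10, 10, 10, 6, 6, 10, 10, 10, 5, 10],
  [1, 10, 3, 10, 10, 10, 10, 10, 3, 4, 10], [4, 10, 10, 10, 1, 1, 10, 10, 10, 3, 10], [4, 10, 10, 10, 3, 10, 10, 3, 10, 10, 10],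
  [8, 6, 10, 10, 5, 10, 10, 5, 10, 6, 10], [3, 10, 4, 10, 10, 3, 10, 4, 10, 10, 10], [5, 10, 8, 10, 6, 10, 10, 3, 10, 1, 10],
  [10, 10, 1, 10, 10, 10, 10, 10, 10, 1, 10], [6, 10, 8, 10, 10, 10, 10, 6, 10, 8, 10], [10, 10, 5, 10, 10, 10, 10, 10, 10, 5, 10],
  [10, 3, 4, 10, 10, 10, 10, 10, 3, 4, 10], [3, 10, 10, 10, 10, 10, 10, 3, 10, 10, 10], [5, 10, 6, 10, 10, 10, 10, 5, 10, 6, 10],
  [4, 10, 10, 10, 10, 10, 10, 4, 10, 10, 10], [10, 10, 10, 10, 10, 10, 10, 10, 10, 10, 10], [10, 10, 6, 10, 10, 10, 10, 10, 10, 6, 10],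
  [10, 10, 5, 10, 6, 10, 6, 10, 10, 5, 10], [8, 10, 6, 10, 10, 10, 10, 8, 10, 6, 10], [10, 6, 10, 10, 10, 10, 10, 10, 6, 10, 10],
  [10, 1, 10, 10, 10, 10, 10, 10, 1, 10, 10], [6, 5, 10, 10, 10, 10, 10, 6, 5, 10, 10], [7, 10, 10, 10, 10, 10, 10, 10, 10, 7, 10],
  [1, 10, 3, 10, 10, 10, 10, 10, 10, 1, 10], [4, 10, 10, 10, 10, 10, 10, 10, 10, 4, 10], [8, 6, 10, 10, 10, 6, 10, 10, 10, 8, 10],
  [3, 10, 4, 10, 10, 10, 10, 10, 10, 3, 10], [5, 10, 8, 10, 10, 10, 10, 10, 10, 5, 10], [3, 10, 10, 10, 10, 10, 10, 10, 10, 3, 10],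
  [5, 10, 6, 10, 10, 10, 10, 10, 10, 5, 10], [4, 10, 10, 3, 10, 10, 10, 3, 10, 4, 10], [3, 10, 1, 10, 10, 10, 10, 10, 10, 3, 10],
  [10, 3, 10, 10, 10, 3, 10, 10, 10, 10, 10], [6, 5, 10, 10, 10, 5, 10, 10, 10, 6, 10], [10, 4, 3, 10, 10, 4, 10, 10, 10, 10, 10],
  [2, 10, 10, 10, 10, 10, 10, 10, 10, 10, 10], [7, 10, 10, 10, 10, 10, 10, 10, 10, 6, 10], [1, 10, 10, 10, 3, 3, 10, 10, 10, 10, 10],
  [4, 10, 10, 10, 10, 10, 10, 10, 10, 1, 10], [4, 10, 10, 10, 10, 10, 10, 10, 10, 3, 10], [8, 10, 6, 10, 10, 10, 10, 10, 6, 5, 10],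
  [3, 10, 10, 10, 4, 4, 10, 10, 10, 10, 10], [5, 10, 10, 10, 8, 8, 10, 10, 10, 6, 10], [3, 10, 10, 10, 10, 10, 10, 10, 10, 10, 10],
  [5, 10, 10, 10, 6, 10, 10, 6, 10, 10, 10], [4, 3, 10, 10, 10, 10, 10, 10, 10, 3, 10], [3, 10, 10, 10, 1, 10, 10, 1, 10, 10, 10],
  [10, 10, 3, 10, 10, 10, 10, 3, 10, 10, 10], [6, 10, 5, 10, 10, 6, 10, 5, 10, 10, 10], [10, 10, 4, 10, 3, 10, 10, 10, 10, 4, 10],
  [1, 10, 3, 10, 10, 10, 10, 6, 10, 8, 10], [10, 10, 8, 10, 10, 10, 10, 10, 10, 8, 10], [10, 6, 5, 10, 10, 10, 10, 10, 6, 5, 10],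
  [6, 10, 10, 10, 10, 10, 10, 6, 10, 10, 10], [1, 10, 10, 10, 10, 10, 10, 1, 10, 10, 10], [5, 10, 10, 10, 10, 10, 10, 5, 10, 10, 10],
  [10, 10, 10, 10, 3, 10, 3, 10, 10, 10, 10], [10, 4, 10, 10, 10, 10, 10, 10, 4, 10, 10], [10, 8, 10, 10, 10, 10, 10, 10, 8, 10, 10],
  [1, 10, 10, 10, 10, 10, 10, 10, 10, 1, 10], [8, 10, 6, 10, 10, 10, 10, 10, 10, 8, 10], [5, 10, 10, 10, 10, 10, 10, 10, 10, 5, 10],
  [4, 3, 10, 10, 10, 3, 10, 10, 10, 4, 10], [10, 10, 3, 10, 10, 10, 10, 10, 10, 10, 10], [6, 10, 5, 10, 10, 10, 10, 10, 10, 6, 10],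
  [10, 10, 4, 10, 10, 10, 10, 10, 10, 10, 10], [6, 10, 10, 10, 10, 10, 10, 10, 10, 6, 10], [5, 10, 10, 6, 10, 10, 10, 6, 10, 5, 10],
  [6, 10, 8, 10, 10, 10, 10, 10, 10, 6, 10], [10, 6, 10, 10, 10, 6, 10, 10, 10, 10, 10], [10, 1, 10, 10, 10, 1, 10, 10, 10, 10, 10],
  [10, 5, 6, 10, 10, 5, 10, 10, 10, 10, 10], [7, 10, 10, 10, 10, 10, 10, 10, 10, 10, 10], [1, 10, 10, 10, 10, 10, 10, 10, 10, 3, 10],
  [4, 10, 10, 10, 10, 10, 10, 10, 10, 10, 10], [8, 10, 10, 10, 6, 6, 10, 10, 10, 10, 10], [3, 10, 10, 10, 10, 10, 10, 10, 10, 4, 10],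
  [5, 10, 10, 10, 10, 10, 10, 10, 10, 8, 10], [5, 10, 10, 10, 10, 10, 10, 10, 10, 6, 10], [4, 10, 3, 10, 10, 10, 10, 10, 3, 10, 10],
  [3, 10, 10, 10, 10, 10, 10, 10, 10, 1, 10], [10, 10, 10, 10, 3, 3, 10, 10, 10, 10, 10], [6, 10, 10, 10, 5, 5, 10, 10, 10, 10, 10],
  [10, 10, 10, 10, 4, 4, 10, 10, 10, 3, 10], [6, 10, 10, 10, 10, 10, 10, 10, 10, 10, 10], [10, 10, 10, 10, 3, 10, 10, 3, 10, 10, 10],
  [1, 10, 10, 10, 10, 10, 10, 10, 10, 10, 10], [5, 6, 10, 10, 10, 10, 10, 10, 10, 6, 10], [10, 10, 10, 10, 4, 10, 10, 4, 10, 10, 10],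
  [6, 10, 10, 10, 8, 10, 10, 8, 10, 10, 10], [10, 10, 6, 10, 10, 10, 10, 6, 10, 10, 10], [3, 10, 10, 10, 10, 3, 10, 10, 10, 10, 10],
  [10, 10, 1, 10, 10, 10, 10, 1, 10, 10, 10], [10, 10, 5, 10, 6, 10, 10, 10, 10, 5, 10], [4, 10, 10, 10, 10, 10, 10, 3, 10, 4, 10],
  [8, 10, 6, 10, 10, 10, 10, 10, 10, 3, 10], [8, 10, 10, 10, 10, 10, 10, 8, 10, 10, 10], [10, 10, 10, 10, 6, 10, 6, 10, 10, 10, 10],
  [10, 5, 10, 10, 10, 10, 10, 10, 5, 10, 10], [8, 10, 10, 10, 10, 10, 10, 10, 10, 8, 10], [5, 6, 10, 10, 10, 6, 10, 10, 10, 5, 10],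
  [10, 10, 6, 10, 10, 10, 10, 10, 10, 10, 10], [10, 10, 1, 10, 10, 10, 10, 10, 10, 10, 10], [10, 10, 5, 10, 10, 10, 10, 10, 10, 10, 10],
  [10, 10, 10, 3, 10, 10, 10, 3, 10, 10, 10], [10, 4, 10, 10, 10, 4, 10, 10, 10, 10, 10], [10, 8, 10, 10, 10, 8, 10, 10, 10, 10, 10],
  [8, 10, 10, 10, 10, 10, 10, 10, 10, 6, 10], [5, 10, 10, 10, 10, 10, 10, 10, 10, 10, 10], [4, 10, 10, 10, 3, 3, 10, 10, 10, 10, 10],
  [10, 10, 10, 10, 10, 10, 10, 10, 10, 3, 10], [6, 10, 10, 10, 10, 10, 10, 10, 10, 5, 10], [10, 10, 10, 10, 10, 10, 10, 10, 10, 4, 10],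
  [5, 10, 6, 10, 10, 10, 10, 10, 6, 10, 10], [6, 10, 10, 10, 10, 10, 10, 10, 10, 8, 10], [10, 10, 10, 10, 6, 6, 10, 10, 10, 10, 10],
  [10, 10, 10, 10, 1, 1, 10, 10, 10, 10, 10], [10, 10, 10, 10, 5, 5, 10, 10, 10, 6, 10], [10, 10, 10, 10, 6, 10, 10, 6, 10, 10, 10],
  [8, 10, 10, 10, 10, 10, 10, 10, 10, 10, 10], [10, 3, 10, 10, 10, 10, 10, 10, 10, 3, 10], [10, 10, 10, 10, 5, 10, 10, 5, 10, 10, 10],
  [3, 10, 10, 10, 4, 10, 10, 4, 10, 10, 10], [6, 10, 10, 10, 10, 6, 10, 10, 10, 10, 10], [10, 10, 4, 10, 10, 10, 10, 4, 10, 10, 10],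
  [10, 10, 8, 10, 10, 10, 10, 8, 10, 10, 10], [10, 10, 10, 10, 3, 10, 10, 10, 10, 10, 10], [5, 10, 10, 10, 10, 10, 10, 6, 10, 5, 10],
  [4, 10, 3, 10, 10, 10, 10, 10, 10, 10, 10], [3, 10, 10, 10, 10, 10, 10, 10, 10, 6, 10], [10, 10, 8, 10, 10, 10, 10, 10, 10, 10, 10],
  [10, 10, 10, 6, 10, 10, 10, 6, 10, 10, 10], [10, 5, 10, 10, 10, 5, 10, 10, 10, 10, 10], [5, 10, 10, 10, 6, 6, 10, 10, 10, 10, 10],
  [10, 10, 10, 10, 10, 10, 10, 10, 10, 6, 10], [10, 10, 10, 10, 10, 10, 10, 10, 10, 1, 10], [10, 10, 10, 10, 10, 10, 10, 10, 10, 5, 10],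
  [10, 10, 3, 10, 10, 10, 10, 10, 3, 10, 10], [10, 10, 10, 10, 4, 4, 10, 10, 10, 10, 10], [10, 10, 10, 10, 8, 8, 10, 10, 10, 10, 10],
  [10, 6, 10, 10, 10, 10, 10, 10, 10, 6, 10], [10, 10, 10, 10, 1, 10, 10, 1, 10, 10, 10], [6, 10, 10, 10, 5, 10, 10, 5, 10, 10, 10],
  [10, 10, 5, 10, 10, 10, 10, 5, 10, 10, 10], [10, 10, 10, 10, 6, 10, 10, 10, 10, 10, 10], [10, 10, 10, 10, 10, 10, 10, 3, 10, 10, 10],
  [5, 10, 6, 10, 10, 10, 10, 10, 10, 10, 10], [10, 10, 10, 10, 10, 10, 10, 10, 10, 8, 10], [10, 10, 6, 10, 10, 10, 10, 10, 6, 10, 10],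
  [10, 10, 10, 10, 5, 5, 10, 10, 10, 10, 10], [10, 10, 10, 10, 8, 10, 10, 8, 10, 10, 10], [10, 10, 10, 10, 10, 10, 10, 6, 10, 10, 10]]

theorem cf3a_closed_0 : ∀ f ∈ (mon3a.drop (10 * 0)).take 10, ∀ g ∈ gen3a,
    f.map (lact 10 g) ∈ mon3a := by decide +kernel

theorem cf3a_closed_1 : ∀ f ∈ (mon3a.drop (10 * 1)).take 10, ∀ g ∈ gen3a,
    f.map (lact 10 g) ∈ mon3a := by decide +kernel

theorem cf3a_closed_2 : ∀ f ∈ (mon3a.drop (10 * 2)).take 10, ∀ g ∈ gen3a,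
    f.map (lact 10 g) ∈ mon3a := by decide +kernel

theorem cf3a_closed_3 : ∀ f ∈ (mon3a.drop (10 * 3)).take 10, ∀ g ∈ gen3a,
    f.map (lact 10 g) ∈ mon3a := by decide +kernel

theorem cf3a_closed_4 : ∀ f ∈ (mon3a.drop (10 * 4)).take 10, ∀ g ∈ gen3a,
    f.map (lact 10 g) ∈ mon3a := by decide +kernel

theorem cf3a_closed_5 : ∀ f ∈ (mon3a.drop (10 * 5)).take 10, ∀ g ∈ gen3a,
    f.map (lact 10 g) ∈ mon3a := by decide +kernel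

theorem cf3a_closed_6 : ∀ f ∈ (mon3a.drop (10 * 6)).take 10, ∀ g ∈ gen3a,
    f.map (lact 10 g) ∈ mon3a := by decide +kernel

theorem cf3a_closed_7 : ∀ f ∈ (mon3a.drop (10 * 7)).take 10, ∀ g ∈ gen3a,
    f.map (lact 10 g) ∈ mon3a := by decide +kernel

theorem cf3a_closed_8 : ∀ f ∈ (mon3a.drop (10 * 8)).take 10, ∀ g ∈ gen3a,
    f.map (lact 10 g) ∈ mon3a := by decide +kernel

theorem cf3a_closed_9 : ∀ f ∈ (mon3a.drop (10 * 9)).take 10, ∀ g ∈ gen3a,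
    f.map (lact 10 g) ∈ mon3a := by decide +kernel

theorem cf3a_closed_10 : ∀ f ∈ (mon3a.drop (10 * 10)).take 10, ∀ g ∈ gen3a,
    f.map (lact 10 g) ∈ mon3a := by decide +kernel

theorem cf3a_closed_11 : ∀ f ∈ (mon3a.drop (10 * 11)).take 10, ∀ g ∈ gen3a,
    f.map (lact 10 g) ∈ mon3a := by decide +kernel

theorem cf3a_closed_12 : ∀ f ∈ (mon3a.drop (10 * 12)).take 10, ∀ g ∈ gen3a,
    f.map (lact 10 g) ∈ mon3a := by decide +kernel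

theorem cf3a_closed_13 : ∀ f ∈ (mon3a.drop (10 * 13)).take 10, ∀ g ∈ gen3a,
    f.map (lact 10 g) ∈ mon3a := by decide +kernel

theorem cf3a_closed_14 : ∀ f ∈ (mon3a.drop (10 * 14)).take 10, ∀ g ∈ gen3a,
    f.map (lact 10 g) ∈ mon3a := by decide +kernel

theorem cf3a_closed_15 : ∀ f ∈ (mon3a.drop (10 * 15)).take 10, ∀ g ∈ gen3a,
    f.map (lact 10 g) ∈ mon3a := by decide +kernel

theorem cf3a_closed_16 : ∀ f ∈ (mon3a.drop (10 * 16)).take 10, ∀ g ∈ gen3a,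
    f.map (lact 10 g) ∈ mon3a := by decide +kernel

theorem cf3a_closed_17 : ∀ f ∈ (mon3a.drop (10 * 17)).take 10, ∀ g ∈ gen3a,
    f.map (lact 10 g) ∈ mon3a := by decide +kernel

theorem cf3a_closed_18 : ∀ f ∈ (mon3a.drop (10 * 18)).take 10, ∀ g ∈ gen3a,
    f.map (lact 10 g) ∈ mon3a := by decide +kernel

theorem cf3a_closed_19 : ∀ f ∈ (mon3a.drop (10 * 19)).take 10, ∀ g ∈ gen3a,
    f.map (lact 10 g) ∈ mon3a := by decide +kernel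

theorem cf3a_closed_20 : ∀ f ∈ (mon3a.drop (10 * 20)).take 10, ∀ g ∈ gen3a,
    f.map (lact 10 g) ∈ mon3a := by decide +kernel

theorem cf3a_aper_0 : ∀ f ∈ (mon3a.drop (10 * 0)).take 10, ∀ i ∈ List.range 11,
    (lact 10 f)^[11 + 1] i = (lact 10 f)^[11] i := by decide +kernel

theorem cf3a_aper_1 : ∀ f ∈ (mon3a.drop (10 * 1)).take 10, ∀ i ∈ List.range 11,
    (lact 10 f)^[11 + 1] i = (lact 10 f)^[11] i := by decide +kernel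

theorem cf3a_aper_2 : ∀ f ∈ (mon3a.drop (10 * 2)).take 10, ∀ i ∈ List.range 11,
    (lact 10 f)^[11 + 1] i = (lact 10 f)^[11] i := by decide +kernel

theorem cf3a_aper_3 : ∀ f ∈ (mon3a.drop (10 * 3)).take 10, ∀ i ∈ List.range 11,
    (lact 10 f)^[11 + 1] i = (lact 10 f)^[11] i := by decide +kernel

theorem cf3a_aper_4 : ∀ f ∈ (mon3a.drop (10 * 4)).take 10, ∀ i ∈ List.range 11,
    (lact 10 f)^[11 + 1] i = (lact 10 f)^[11] i := by decide +kernel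

theorem cf3a_aper_5 : ∀ f ∈ (mon3a.drop (10 * 5)).take 10, ∀ i ∈ List.range 11,
    (lact 10 f)^[11 + 1] i = (lact 10 f)^[11] i := by decide +kernel

theorem cf3a_aper_6 : ∀ f ∈ (mon3a.drop (10 * 6)).take 10, ∀ i ∈ List.range 11,
    (lact 10 f)^[11 + 1] i = (lact 10 f)^[11] i := by decide +kernel

theorem cf3a_aper_7 : ∀ f ∈ (mon3a.drop (10 * 7)).take 10, ∀ i ∈ List.range 11,
    (lact 10 f)^[11 + 1] i = (lact 10 f)^[11] i := by decide +kernel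

theorem cf3a_aper_8 : ∀ f ∈ (mon3a.drop (10 * 8)).take 10, ∀ i ∈ List.range 11,
    (lact 10 f)^[11 + 1] i = (lact 10 f)^[11] i := by decide +kernel

theorem cf3a_aper_9 : ∀ f ∈ (mon3a.drop (10 * 9)).take 10, ∀ i ∈ List.range 11,
    (lact 10 f)^[11 + 1] i = (lact 10 f)^[11] i := by decide +kernel

theorem cf3a_aper_10 : ∀ f ∈ (mon3a.drop (10 * 10)).take 10, ∀ i ∈ List.range 11,
    (lact 10 f)^[11 + 1] i = (lact 10 f)^[11] i := by decide +kernel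

theorem cf3a_aper_11 : ∀ f ∈ (mon3a.drop (10 * 11)).take 10, ∀ i ∈ List.range 11,
    (lact 10 f)^[11 + 1] i = (lact 10 f)^[11] i := by decide +kernel

theorem cf3a_aper_12 : ∀ f ∈ (mon3a.drop (10 * 12)).take 10, ∀ i ∈ List.range 11,
    (lact 10 f)^[11 + 1] i = (lact 10 f)^[11] i := by decide +kernel

theorem cf3a_aper_13 : ∀ f ∈ (mon3a.drop (10 * 13)).take 10, ∀ i ∈ List.range 11,
    (lact 10 f)^[11 + 1] i = (lact 10 f)^[11] i := by decide +kernel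

theorem cf3a_aper_14 : ∀ f ∈ (mon3a.drop (10 * 14)).take 10, ∀ i ∈ List.range 11,
    (lact 10 f)^[11 + 1] i = (lact 10 f)^[11] i := by decide +kernel

theorem cf3a_aper_15 : ∀ f ∈ (mon3a.drop (10 * 15)).take 10, ∀ i ∈ List.range 11,
    (lact 10 f)^[11 + 1] i = (lact 10 f)^[11] i := by decide +kernel

theorem cf3a_aper_16 : ∀ f ∈ (mon3a.drop (10 * 16)).take 10, ∀ i ∈ List.range 11,
    (lact 10 f)^[11 + 1] i = (lact 10 f)^[11] i := by decide +kernel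

theorem cf3a_aper_17 : ∀ f ∈ (mon3a.drop (10 * 17)).take 10, ∀ i ∈ List.range 11,
    (lact 10 f)^[11 + 1] i = (lact 10 f)^[11] i := by decide +kernel

theorem cf3a_aper_18 : ∀ f ∈ (mon3a.drop (10 * 18)).take 10, ∀ i ∈ List.range 11,
    (lact 10 f)^[11 + 1] i = (lact 10 f)^[11] i := by decide +kernel

theorem cf3a_aper_19 : ∀ f ∈ (mon3a.drop (10 * 19)).take 10, ∀ i ∈ List.range 11,
    (lact 10 f)^[11 + 1] i = (lact 10 f)^[11] i := by decide +kernel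

theorem cf3a_aper_20 : ∀ f ∈ (mon3a.drop (10 * 20)).take 10, ∀ i ∈ List.range 11,
    (lact 10 f)^[11 + 1] i = (lact 10 f)^[11] i := by decide +kernel

theorem cf3a : CounterFree (kill (two 3 (tab 1 0) (tab 4 1))
    (ev2 3 (tab 1 0) (tab 4 1))) := by
  refine counterFree_of_cert _ 11 10 idx2 idx2_inj idx2_lt mon3a gen3a ?_ ?_ ?_ ?_ ?_
  · decide +kernel
  · decide +kernel
  · decide +kernel
  · exact forall_mem_of_chunks _ mon3a 10 21 (by norm_num) (by decide +kernel) (fun j hj => by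
      interval_cases j
      · exact cf3a_closed_0
      · exact cf3a_closed_1
      · exact cf3a_closed_2
      · exact cf3a_closed_3
      · exact cf3a_closed_4
      · exact cf3a_closed_5
      · exact cf3a_closed_6
      · exact cf3a_closed_7
      · exact cf3a_closed_8
      · exact cf3a_closed_9
      · exact cf3a_closed_10
      · exact cf3a_closed_11
      · exact cf3a_closed_12
      · exact cf3a_closed_13
      · exact cf3a_closed_14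
      · exact cf3a_closed_15
      · exact cf3a_closed_16
      · exact cf3a_closed_17
      · exact cf3a_closed_18
      · exact cf3a_closed_19
      · exact cf3a_closed_20)
  · exact forall_mem_of_chunks _ mon3a 10 21 (by norm_num) (by decide +kernel) (fun j hj => by
      interval_cases j
      · exact cf3a_aper_0
      · exact cf3a_aper_1
      · exact cf3a_aper_2
      · exact cf3a_aper_3
      · exact cf3a_aper_4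
      · exact cf3a_aper_5
      · exact cf3a_aper_6
      · exact cf3a_aper_7
      · exact cf3a_aper_8
      · exact cf3a_aper_9
      · exact cf3a_aper_10
      · exact cf3a_aper_11
      · exact cf3a_aper_12
      · exact cf3a_aper_13
      · exact cf3a_aper_14
      · exact cf3a_aper_15
      · exact cf3a_aper_16
      · exact cf3a_aper_17
      · exact cf3a_aper_18
      · exact cf3a_aper_19
      · exact cf3a_aper_20)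

def gen3b : List (List ℕ) := [
  [1, 4, 2, 10, 3, 2, 10, 3, 1, 4, 10], [8, 7, 6, 5, 9, 1, 10, 4, 3, 2, 10], [0, 1, 2, 3, 4, 5, 6, 7, 8, 9, 10]]

def mon3b : List (List ℕ) := [
  [0, 1, 2, 3, 4, 5, 6, 7, 8, 9, 10], [1, 4, 2, 10, 3, 2, 10, 3, 1, 4, 10], [8, 7, 6, 5, 9, 1, 10, 4, 3, 2, 10],
  [4, 3, 2, 10, 10, 2, 10, 10, 4, 3, 10], [7, 9, 6, 10, 5, 6, 10, 5, 7, 9, 10], [1, 3, 10, 2, 4, 4, 10, 3, 10, 2, 10],
  [3, 4, 10, 1, 2, 7, 10, 9, 5, 6, 10], [3, 10, 2, 10, 10, 2, 10, 10, 3, 10, 10], [9, 5, 6, 10, 10, 6, 10, 10, 9, 5, 10],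
  [3, 4, 10, 10, 2, 10, 10, 2, 3, 4, 10], [4, 2, 10, 10, 1, 10, 10, 1, 4, 2, 10], [4, 10, 10, 2, 3, 3, 10, 10, 10, 2, 10],
  [7, 5, 10, 6, 9, 9, 10, 5, 10, 6, 10], [10, 3, 10, 4, 2, 3, 10, 4, 2, 10, 10], [5, 9, 10, 7, 6, 4, 10, 2, 1, 10, 10],
  [10, 10, 2, 10, 10, 2, 10, 10, 10, 10, 10], [5, 10, 6, 10, 10, 6, 10, 10, 5, 10, 10], [4, 2, 10, 10, 10, 10, 10, 10, 4, 2, 10],
  [2, 1, 10, 10, 10, 10, 10, 10, 2, 1, 10], [10, 3, 10, 10, 2, 10, 10, 2, 10, 3, 10], [5, 9, 10, 10, 6, 10, 10, 6, 5, 9, 10],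
  [3, 2, 10, 10, 4, 10, 10, 4, 3, 2, 10], [9, 6, 10, 10, 7, 10, 10, 7, 9, 6, 10], [3, 10, 10, 2, 10, 10, 10, 10, 10, 2, 10],
  [9, 10, 10, 6, 5, 5, 10, 10, 10, 6, 10], [3, 2, 10, 10, 4, 4, 10, 2, 10, 10, 10], [4, 1, 10, 10, 2, 2, 10, 1, 10, 10, 10],
  [10, 10, 10, 3, 2, 10, 10, 3, 2, 10, 10], [10, 5, 10, 9, 6, 5, 10, 9, 6, 10, 10], [2, 4, 10, 3, 10, 3, 10, 2, 4, 10, 10],
  [1, 2, 10, 4, 10, 9, 10, 6, 7, 10, 10], [10, 10, 6, 10, 10, 6, 10, 10, 10, 10, 10], [2, 10, 10, 10, 10, 10, 10, 10, 2, 10, 10],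
  [1, 10, 10, 10, 10, 10, 10, 10, 1, 10, 10], [3, 2, 10, 10, 10, 10, 10, 10, 3, 2, 10], [9, 6, 10, 10, 10, 10, 10, 10, 9, 6, 10],
  [2, 4, 10, 10, 10, 10, 10, 10, 2, 4, 10], [6, 7, 10, 10, 10, 10, 10, 10, 6, 7, 10], [10, 10, 10, 10, 2, 10, 10, 2, 10, 10, 10],
  [10, 5, 10, 10, 6, 10, 10, 6, 10, 5, 10], [1, 2, 10, 10, 10, 10, 10, 10, 1, 2, 10], [10, 2, 10, 10, 3, 10, 10, 3, 10, 2, 10],
  [5, 6, 10, 10, 9, 10, 10, 9, 5, 6, 10], [4, 10, 10, 10, 3, 10, 10, 3, 4, 10, 10], [2, 10, 10, 10, 4, 10, 10, 4, 2, 10, 10],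
  [10, 10, 10, 2, 10, 10, 10, 10, 10, 2, 10], [5, 10, 10, 6, 10, 10, 10, 10, 10, 6, 10], [4, 10, 10, 10, 2, 2, 10, 10, 10, 10, 10],
  [2, 10, 10, 10, 1, 1, 10, 10, 10, 10, 10], [10, 2, 10, 10, 3, 3, 10, 2, 10, 10, 10], [5, 6, 10, 10, 9, 9, 10, 6, 10, 10, 10],
  [3, 4, 10, 10, 2, 2, 10, 4, 10, 10, 10], [9, 7, 10, 10, 6, 6, 10, 7, 10, 10, 10], [10, 10, 10, 10, 2, 10, 10, 10, 2, 10, 10],
  [10, 10, 10, 5, 6, 10, 10, 5, 6, 10, 10], [10, 2, 10, 4, 10, 2, 10, 4, 10, 10, 10], [10, 1, 10, 2, 10, 1, 10, 2, 10, 10, 10],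
  [2, 3, 10, 10, 10, 10, 10, 2, 3, 10, 10], [6, 9, 10, 5, 10, 5, 10, 6, 9, 10, 10], [4, 2, 10, 3, 10, 4, 10, 10, 3, 10, 10],
  [7, 6, 10, 9, 10, 2, 10, 10, 4, 10, 10], [10, 10, 10, 10, 10, 10, 10, 10, 10, 10, 10], [6, 10, 10, 10, 10, 10, 10, 10, 6, 10, 10],
  [4, 10, 10, 10, 10, 10, 10, 10, 4, 10, 10], [7, 10, 10, 10, 10, 10, 10, 10, 7, 10, 10], [10, 2, 10, 10, 10, 10, 10, 10, 10, 2, 10],
  [5, 6, 10, 10, 10, 10, 10, 10, 5, 6, 10], [2, 3, 10, 10, 10, 10, 10, 10, 2, 3, 10], [6, 9, 10, 10, 10, 10, 10, 10, 6, 9, 10],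
  [10, 3, 10, 10, 10, 10, 10, 10, 10, 3, 10], [10, 4, 10, 10, 10, 10, 10, 10, 10, 4, 10], [10, 10, 10, 10, 6, 10, 10, 6, 10, 10, 10],
  [10, 1, 10, 10, 10, 10, 10, 10, 10, 1, 10], [7, 6, 10, 10, 10, 10, 10, 10, 7, 6, 10], [10, 6, 10, 10, 5, 10, 10, 5, 10, 6, 10],
  [1, 10, 10, 10, 2, 10, 10, 2, 1, 10, 10], [3, 10, 10, 10, 10, 10, 10, 10, 3, 10, 10], [9, 10, 10, 10, 5, 10, 10, 5, 9, 10, 10],
  [2, 10, 10, 10, 3, 10, 10, 3, 2, 10, 10], [6, 10, 10, 10, 9, 10, 10, 9, 6, 10, 10], [10, 10, 10, 6, 10, 10, 10, 10, 10, 6, 10],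
  [2, 10, 10, 10, 10, 10, 10, 10, 10, 10, 10], [1, 10, 10, 10, 10, 10, 10, 10, 10, 10, 10], [3, 10, 10, 10, 2, 2, 10, 10, 10, 10, 10],
  [9, 10, 10, 10, 6, 6, 10, 10, 10, 10, 10], [2, 10, 10, 10, 4, 4, 10, 10, 10, 10, 10], [6, 10, 10, 10, 7, 7, 10, 10, 10, 10, 10],
  [10, 2, 10, 10, 10, 10, 10, 2, 10, 10, 10], [10, 6, 10, 10, 5, 5, 10, 6, 10, 10, 10], [1, 10, 10, 10, 2, 2, 10, 10, 10, 10, 10],
  [10, 3, 10, 10, 2, 2, 10, 3, 10, 10, 10], [5, 9, 10, 10, 6, 6, 10, 9, 10, 10, 10], [4, 3, 10, 10, 10, 10, 10, 3, 10, 10, 10],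
  [2, 4, 10, 10, 10, 10, 10, 4, 10, 10, 10], [10, 10, 10, 10, 6, 10, 10, 10, 6, 10, 10], [10, 10, 10, 2, 10, 10, 10, 2, 10, 10, 10],
  [10, 10, 10, 1, 10, 10, 10, 1, 10, 10, 10], [10, 2, 10, 3, 10, 2, 10, 3, 10, 10, 10], [10, 6, 10, 9, 10, 6, 10, 9, 10, 10, 10],
  [10, 4, 10, 2, 10, 4, 10, 2, 10, 10, 10], [10, 7, 10, 6, 10, 7, 10, 6, 10, 10, 10], [2, 10, 10, 10, 10, 10, 10, 2, 10, 10, 10],
  [6, 5, 10, 10, 10, 10, 10, 6, 5, 10, 10], [10, 4, 10, 2, 10, 2, 10, 10, 4, 10, 10], [10, 2, 10, 1, 10, 1, 10, 10, 2, 10, 10],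
  [3, 2, 10, 10, 10, 3, 10, 10, 10, 10, 10], [9, 6, 10, 5, 10, 9, 10, 10, 5, 10, 10], [3, 10, 10, 4, 10, 2, 10, 10, 3, 10, 10],
  [4, 10, 10, 2, 10, 6, 10, 10, 9, 10, 10], [9, 10, 10, 10, 10, 10, 10, 10, 9, 10, 10], [10, 6, 10, 10, 10, 10, 10, 10, 10, 6, 10],
  [6, 5, 10, 10, 10, 10, 10, 10, 6, 5, 10], [10, 5, 10, 10, 10, 10, 10, 10, 10, 5, 10], [10, 9, 10, 10, 10, 10, 10, 10, 10, 9, 10],
  [10, 7, 10, 10, 10, 10, 10, 10, 10, 7, 10], [10, 10, 10, 10, 1, 10, 10, 1, 10, 10, 10], [4, 10, 10, 10, 2, 10, 10, 2, 4, 10, 10],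
  [7, 10, 10, 10, 6, 10, 10, 6, 7, 10, 10], [5, 10, 10, 10, 10, 10, 10, 10, 5, 10, 10], [2, 10, 10, 10, 1, 10, 10, 1, 2, 10, 10],
  [6, 10, 10, 10, 5, 10, 10, 5, 6, 10, 10], [10, 10, 10, 10, 4, 10, 10, 4, 10, 10, 10], [6, 10, 10, 10, 10, 10, 10, 10, 10, 10, 10],
  [4, 10, 10, 10, 10, 10, 10, 10, 10, 10, 10], [7, 10, 10, 10, 10, 10, 10, 10, 10, 10, 10], [10, 10, 10, 10, 2, 2, 10, 10, 10, 10, 10],
  [5, 10, 10, 10, 6, 6, 10, 10, 10, 10, 10], [2, 10, 10, 10, 3, 3, 10, 10, 10, 10, 10], [6, 10, 10, 10, 9, 9, 10, 10, 10, 10, 10],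
  [10, 10, 10, 10, 3, 3, 10, 10, 10, 10, 10], [10, 10, 10, 10, 4, 4, 10, 10, 10, 10, 10], [10, 6, 10, 10, 10, 10, 10, 6, 10, 10, 10],
  [10, 10, 10, 10, 1, 1, 10, 10, 10, 10, 10], [7, 10, 10, 10, 6, 6, 10, 10, 10, 10, 10], [10, 5, 10, 10, 6, 6, 10, 5, 10, 10, 10],
  [1, 2, 10, 10, 10, 10, 10, 2, 10, 10, 10], [3, 10, 10, 10, 10, 10, 10, 10, 10, 10, 10], [9, 5, 10, 10, 10, 10, 10, 5, 10, 10, 10],
  [2, 3, 10, 10, 10, 10, 10, 3, 10, 10, 10], [6, 9, 10, 10, 10, 10, 10, 9, 10, 10, 10], [10, 10, 10, 6, 10, 10, 10, 6, 10, 10, 10],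
  [10, 10, 10, 4, 10, 10, 10, 4, 10, 10, 10], [10, 10, 10, 7, 10, 10, 10, 7, 10, 10, 10], [10, 2, 10, 10, 10, 2, 10, 10, 10, 10, 10],
  [10, 6, 10, 5, 10, 6, 10, 5, 10, 10, 10], [10, 3, 10, 2, 10, 3, 10, 2, 10, 10, 10], [10, 9, 10, 6, 10, 9, 10, 6, 10, 10, 10],
  [10, 3, 10, 10, 10, 3, 10, 10, 10, 10, 10], [10, 4, 10, 10, 10, 4, 10, 10, 10, 10, 10], [6, 10, 10, 10, 10, 10, 10, 6, 10, 10, 10],
  [10, 2, 10, 10, 10, 10, 10, 10, 2, 10, 10], [10, 1, 10, 10, 10, 10, 10, 10, 1, 10, 10], [10, 3, 10, 2, 10, 2, 10, 10, 3, 10, 10],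
  [10, 9, 10, 6, 10, 6, 10, 10, 9, 10, 10], [10, 2, 10, 4, 10, 4, 10, 10, 2, 10, 10], [10, 6, 10, 7, 10, 7, 10, 10, 6, 10, 10],
  [10, 2, 10, 10, 10, 10, 10, 10, 10, 10, 10], [5, 6, 10, 10, 10, 5, 10, 10, 10, 10, 10], [4, 10, 10, 2, 10, 4, 10, 10, 2, 10, 10],
  [2, 10, 10, 1, 10, 2, 10, 10, 1, 10, 10], [10, 10, 10, 3, 10, 2, 10, 10, 10, 10, 10], [5, 10, 10, 9, 10, 6, 10, 10, 5, 10, 10],
  [3, 10, 10, 2, 10, 10, 10, 10, 4, 10, 10], [9, 10, 10, 6, 10, 10, 10, 10, 2, 10, 10], [10, 10, 10, 10, 7, 10, 10, 7, 10, 10, 10],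
  [3, 10, 10, 10, 2, 10, 10, 2, 3, 10, 10], [9, 10, 10, 10, 6, 10, 10, 6, 9, 10, 10], [6, 10, 10, 10, 7, 10, 10, 7, 6, 10, 10],
  [10, 10, 10, 10, 3, 10, 10, 3, 10, 10, 10], [10, 10, 10, 10, 9, 10, 10, 9, 10, 10, 10], [9, 10, 10, 10, 10, 10, 10, 10, 10, 10, 10],
  [10, 10, 10, 10, 6, 6, 10, 10, 10, 10, 10], [6, 10, 10, 10, 5, 5, 10, 10, 10, 10, 10], [10, 10, 10, 10, 5, 5, 10, 10, 10, 10, 10],
  [10, 10, 10, 10, 9, 9, 10, 10, 10, 10, 10], [10, 10, 10, 10, 7, 7, 10, 10, 10, 10, 10], [10, 1, 10, 10, 10, 10, 10, 1, 10, 10, 10],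
  [4, 2, 10, 10, 10, 10, 10, 2, 10, 10, 10], [7, 6, 10, 10, 10, 10, 10, 6, 10, 10, 10], [5, 10, 10, 10, 10, 10, 10, 10, 10, 10, 10],
  [2, 1, 10, 10, 10, 10, 10, 1, 10, 10, 10], [6, 5, 10, 10, 10, 10, 10, 5, 10, 10, 10], [10, 4, 10, 10, 10, 10, 10, 4, 10, 10, 10],
  [10, 10, 10, 3, 10, 10, 10, 3, 10, 10, 10], [10, 10, 10, 9, 10, 10, 10, 9, 10, 10, 10], [10, 6, 10, 10, 10, 6, 10, 10, 10, 10, 10],
  [10, 5, 10, 6, 10, 5, 10, 6, 10, 10, 10], [10, 5, 10, 10, 10, 5, 10, 10, 10, 10, 10], [10, 9, 10, 10, 10, 9, 10, 10, 10, 10, 10],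
  [10, 6, 10, 10, 10, 10, 10, 10, 6, 10, 10], [10, 4, 10, 10, 10, 10, 10, 10, 4, 10, 10], [10, 7, 10, 10, 10, 10, 10, 10, 7, 10, 10],
  [10, 10, 10, 2, 10, 2, 10, 10, 10, 10, 10], [10, 5, 10, 6, 10, 6, 10, 10, 5, 10, 10], [10, 2, 10, 3, 10, 3, 10, 10, 2, 10, 10],
  [10, 6, 10, 9, 10, 9, 10, 10, 6, 10, 10], [10, 10, 10, 3, 10, 3, 10, 10, 10, 10, 10], [10, 10, 10, 4, 10, 4, 10, 10, 10, 10, 10],
  [10, 6, 10, 10, 10, 10, 10, 10, 10, 10, 10], [2, 10, 10, 10, 10, 2, 10, 10, 10, 10, 10], [1, 10, 10, 10, 10, 1, 10, 10, 10, 10, 10],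
  [3, 10, 10, 2, 10, 3, 10, 10, 2, 10, 10], [9, 10, 10, 6, 10, 9, 10, 10, 6, 10, 10], [2, 10, 10, 4, 10, 2, 10, 10, 4, 10, 10],
  [6, 10, 10, 7, 10, 6, 10, 10, 7, 10, 10], [10, 10, 10, 10, 10, 2, 10, 10, 10, 10, 10], [10, 10, 10, 5, 10, 6, 10, 10, 10, 10, 10],
  [2, 10, 10, 4, 10, 10, 10, 10, 2, 10, 10], [1, 10, 10, 2, 10, 10, 10, 10, 1, 10, 10], [10, 10, 10, 2, 10, 10, 10, 10, 3, 10, 10],
  [5, 10, 10, 6, 10, 10, 10, 10, 9, 10, 10], [4, 10, 10, 10, 10, 10, 10, 10, 2, 10, 10], [2, 10, 10, 10, 10, 10, 10, 10, 6, 10, 10],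
  [5, 10, 10, 10, 6, 10, 10, 6, 5, 10, 10], [10, 10, 10, 10, 5, 10, 10, 5, 10, 10, 10], [10, 7, 10, 10, 10, 10, 10, 7, 10, 10, 10],
  [3, 2, 10, 10, 10, 10, 10, 2, 10, 10, 10], [9, 6, 10, 10, 10, 10, 10, 6, 10, 10, 10], [6, 7, 10, 10, 10, 10, 10, 7, 10, 10, 10],
  [10, 3, 10, 10, 10, 10, 10, 3, 10, 10, 10], [10, 9, 10, 10, 10, 10, 10, 9, 10, 10, 10], [10, 10, 10, 5, 10, 10, 10, 5, 10, 10, 10],
  [10, 1, 10, 10, 10, 1, 10, 10, 10, 10, 10], [10, 3, 10, 10, 10, 10, 10, 10, 3, 10, 10], [10, 9, 10, 10, 10, 10, 10, 10, 9, 10, 10],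
  [10, 10, 10, 6, 10, 6, 10, 10, 10, 10, 10], [10, 6, 10, 5, 10, 5, 10, 10, 6, 10, 10], [10, 10, 10, 5, 10, 5, 10, 10, 10, 10, 10],
  [10, 10, 10, 9, 10, 9, 10, 10, 10, 10, 10], [6, 10, 10, 10, 10, 6, 10, 10, 10, 10, 10], [4, 10, 10, 10, 10, 4, 10, 10, 10, 10, 10],
  [7, 10, 10, 10, 10, 7, 10, 10, 10, 10, 10], [10, 10, 10, 2, 10, 10, 10, 10, 2, 10, 10], [5, 10, 10, 6, 10, 5, 10, 10, 6, 10, 10],
  [2, 10, 10, 3, 10, 2, 10, 10, 3, 10, 10], [6, 10, 10, 9, 10, 6, 10, 10, 9, 10, 10], [10, 10, 10, 3, 10, 10, 10, 10, 3, 10, 10],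
  [10, 10, 10, 4, 10, 10, 10, 10, 4, 10, 10], [10, 10, 10, 10, 10, 6, 10, 10, 10, 10, 10], [10, 10, 10, 2, 10, 10, 10, 10, 10, 10, 10],
  [10, 10, 10, 1, 10, 10, 10, 10, 10, 10, 10], [2, 10, 10, 3, 10, 10, 10, 10, 2, 10, 10], [6, 10, 10, 9, 10, 10, 10, 10, 6, 10, 10],
  [4, 10, 10, 2, 10, 10, 10, 10, 4, 10, 10], [7, 10, 10, 6, 10, 10, 10, 10, 7, 10, 10], [10, 10, 10, 6, 10, 10, 10, 10, 5, 10, 10],
  [2, 10, 10, 10, 10, 10, 10, 10, 4, 10, 10], [1, 10, 10, 10, 10, 10, 10, 10, 2, 10, 10], [3, 10, 10, 10, 10, 10, 10, 10, 2, 10, 10],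
  [9, 10, 10, 10, 10, 10, 10, 10, 6, 10, 10], [5, 6, 10, 10, 10, 10, 10, 6, 10, 10, 10], [10, 5, 10, 10, 10, 10, 10, 5, 10, 10, 10],
  [10, 7, 10, 10, 10, 7, 10, 10, 10, 10, 10], [10, 5, 10, 10, 10, 10, 10, 10, 5, 10, 10], [10, 10, 10, 1, 10, 1, 10, 10, 10, 10, 10],
  [3, 10, 10, 10, 10, 3, 10, 10, 10, 10, 10], [9, 10, 10, 10, 10, 9, 10, 10, 10, 10, 10], [10, 10, 10, 6, 10, 10, 10, 10, 6, 10, 10],
  [6, 10, 10, 5, 10, 6, 10, 10, 5, 10, 10], [10, 10, 10, 5, 10, 10, 10, 10, 5, 10, 10], [10, 10, 10, 9, 10, 10, 10, 10, 9, 10, 10],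
  [10, 10, 10, 6, 10, 10, 10, 10, 10, 10, 10], [10, 10, 10, 4, 10, 10, 10, 10, 10, 10, 10], [10, 10, 10, 7, 10, 10, 10, 10, 10, 10, 10],
  [6, 10, 10, 5, 10, 10, 10, 10, 6, 10, 10], [3, 10, 10, 2, 10, 10, 10, 10, 3, 10, 10], [9, 10, 10, 6, 10, 10, 10, 10, 9, 10, 10],
  [10, 10, 10, 10, 10, 10, 10, 10, 2, 10, 10], [10, 10, 10, 10, 10, 10, 10, 10, 1, 10, 10], [2, 10, 10, 10, 10, 10, 10, 10, 3, 10, 10],
  [6, 10, 10, 10, 10, 10, 10, 10, 9, 10, 10], [7, 10, 10, 10, 10, 10, 10, 10, 6, 10, 10], [5, 10, 10, 10, 10, 10, 10, 10, 6, 10, 10],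
  [10, 10, 10, 7, 10, 7, 10, 10, 10, 10, 10], [5, 10, 10, 10, 10, 5, 10, 10, 10, 10, 10], [10, 10, 10, 1, 10, 10, 10, 10, 1, 10, 10],
  [10, 10, 10, 3, 10, 10, 10, 10, 10, 10, 10], [10, 10, 10, 9, 10, 10, 10, 10, 10, 10, 10], [5, 10, 10, 6, 10, 10, 10, 10, 5, 10, 10],
  [10, 10, 10, 10, 10, 10, 10, 10, 6, 10, 10], [10, 10, 10, 10, 10, 10, 10, 10, 4, 10, 10], [10, 10, 10, 10, 10, 10, 10, 10, 7, 10, 10],
  [6, 10, 10, 10, 10, 10, 10, 10, 5, 10, 10], [10, 10, 10, 7, 10, 10, 10, 10, 7, 10, 10], [10, 10, 10, 5, 10, 10, 10, 10, 10, 10, 10],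
  [10, 10, 10, 10, 10, 10, 10, 10, 3, 10, 10], [10, 10, 10, 10, 10, 10, 10, 10, 9, 10, 10], [10, 10, 10, 10, 10, 10, 10, 10, 5, 10, 10]]

theorem cf3b_closed_0 : ∀ f ∈ (mon3b.drop (10 * 0)).take 10, ∀ g ∈ gen3b,
    f.map (lact 10 g) ∈ mon3b := by decide +kernel

theorem cf3b_closed_1 : ∀ f ∈ (mon3b.drop (10 * 1)).take 10, ∀ g ∈ gen3b,
    f.map (lact 10 g) ∈ mon3b := by decide +kernel

theorem cf3b_closed_2 : ∀ f ∈ (mon3b.drop (10 * 2)).take 10, ∀ g ∈ gen3b,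
    f.map (lact 10 g) ∈ mon3b := by decide +kernel

theorem cf3b_closed_3 : ∀ f ∈ (mon3b.drop (10 * 3)).take 10, ∀ g ∈ gen3b,
    f.map (lact 10 g) ∈ mon3b := by decide +kernel

theorem cf3b_closed_4 : ∀ f ∈ (mon3b.drop (10 * 4)).take 10, ∀ g ∈ gen3b,
    f.map (lact 10 g) ∈ mon3b := by decide +kernel

theorem cf3b_closed_5 : ∀ f ∈ (mon3b.drop (10 * 5)).take 10, ∀ g ∈ gen3b,
    f.map (lact 10 g) ∈ mon3b := by decide +kernel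

theorem cf3b_closed_6 : ∀ f ∈ (mon3b.drop (10 * 6)).take 10, ∀ g ∈ gen3b,
    f.map (lact 10 g) ∈ mon3b := by decide +kernel

theorem cf3b_closed_7 : ∀ f ∈ (mon3b.drop (10 * 7)).take 10, ∀ g ∈ gen3b,
    f.map (lact 10 g) ∈ mon3b := by decide +kernel

theorem cf3b_closed_8 : ∀ f ∈ (mon3b.drop (10 * 8)).take 10, ∀ g ∈ gen3b,
    f.map (lact 10 g) ∈ mon3b := by decide +kernel

theorem cf3b_closed_9 : ∀ f ∈ (mon3b.drop (10 * 9)).take 10, ∀ g ∈ gen3b,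
    f.map (lact 10 g) ∈ mon3b := by decide +kernel

theorem cf3b_closed_10 : ∀ f ∈ (mon3b.drop (10 * 10)).take 10, ∀ g ∈ gen3b,
    f.map (lact 10 g) ∈ mon3b := by decide +kernel

theorem cf3b_closed_11 : ∀ f ∈ (mon3b.drop (10 * 11)).take 10, ∀ g ∈ gen3b,
    f.map (lact 10 g) ∈ mon3b := by decide +kernel

theorem cf3b_closed_12 : ∀ f ∈ (mon3b.drop (10 * 12)).take 10, ∀ g ∈ gen3b,
    f.map (lact 10 g) ∈ mon3b := by decide +kernel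

theorem cf3b_closed_13 : ∀ f ∈ (mon3b.drop (10 * 13)).take 10, ∀ g ∈ gen3b,
    f.map (lact 10 g) ∈ mon3b := by decide +kernel

theorem cf3b_closed_14 : ∀ f ∈ (mon3b.drop (10 * 14)).take 10, ∀ g ∈ gen3b,
    f.map (lact 10 g) ∈ mon3b := by decide +kernel

theorem cf3b_closed_15 : ∀ f ∈ (mon3b.drop (10 * 15)).take 10, ∀ g ∈ gen3b,
    f.map (lact 10 g) ∈ mon3b := by decide +kernel

theorem cf3b_closed_16 : ∀ f ∈ (mon3b.drop (10 * 16)).take 10, ∀ g ∈ gen3b,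
    f.map (lact 10 g) ∈ mon3b := by decide +kernel

theorem cf3b_closed_17 : ∀ f ∈ (mon3b.drop (10 * 17)).take 10, ∀ g ∈ gen3b,
    f.map (lact 10 g) ∈ mon3b := by decide +kernel

theorem cf3b_closed_18 : ∀ f ∈ (mon3b.drop (10 * 18)).take 10, ∀ g ∈ gen3b,
    f.map (lact 10 g) ∈ mon3b := by decide +kernel

theorem cf3b_closed_19 : ∀ f ∈ (mon3b.drop (10 * 19)).take 10, ∀ g ∈ gen3b,
    f.map (lact 10 g) ∈ mon3b := by decide +kernel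

theorem cf3b_closed_20 : ∀ f ∈ (mon3b.drop (10 * 20)).take 10, ∀ g ∈ gen3b,
    f.map (lact 10 g) ∈ mon3b := by decide +kernel

theorem cf3b_closed_21 : ∀ f ∈ (mon3b.drop (10 * 21)).take 10, ∀ g ∈ gen3b,
    f.map (lact 10 g) ∈ mon3b := by decide +kernel

theorem cf3b_closed_22 : ∀ f ∈ (mon3b.drop (10 * 22)).take 10, ∀ g ∈ gen3b,
    f.map (lact 10 g) ∈ mon3b := by decide +kernel

theorem cf3b_closed_23 : ∀ f ∈ (mon3b.drop (10 * 23)).take 10, ∀ g ∈ gen3b,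
    f.map (lact 10 g) ∈ mon3b := by decide +kernel

theorem cf3b_closed_24 : ∀ f ∈ (mon3b.drop (10 * 24)).take 10, ∀ g ∈ gen3b,
    f.map (lact 10 g) ∈ mon3b := by decide +kernel

theorem cf3b_closed_25 : ∀ f ∈ (mon3b.drop (10 * 25)).take 10, ∀ g ∈ gen3b,
    f.map (lact 10 g) ∈ mon3b := by decide +kernel

theorem cf3b_closed_26 : ∀ f ∈ (mon3b.drop (10 * 26)).take 10, ∀ g ∈ gen3b,
    f.map (lact 10 g) ∈ mon3b := by decide +kernel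

theorem cf3b_closed_27 : ∀ f ∈ (mon3b.drop (10 * 27)).take 10, ∀ g ∈ gen3b,
    f.map (lact 10 g) ∈ mon3b := by decide +kernel

theorem cf3b_closed_28 : ∀ f ∈ (mon3b.drop (10 * 28)).take 10, ∀ g ∈ gen3b,
    f.map (lact 10 g) ∈ mon3b := by decide +kernel

theorem cf3b_aper_0 : ∀ f ∈ (mon3b.drop (10 * 0)).take 10, ∀ i ∈ List.range 11,
    (lact 10 f)^[11 + 1] i = (lact 10 f)^[11] i := by decide +kernel

theorem cf3b_aper_1 : ∀ f ∈ (mon3b.drop (10 * 1)).take 10, ∀ i ∈ List.range 11,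
    (lact 10 f)^[11 + 1] i = (lact 10 f)^[11] i := by decide +kernel

theorem cf3b_aper_2 : ∀ f ∈ (mon3b.drop (10 * 2)).take 10, ∀ i ∈ List.range 11,
    (lact 10 f)^[11 + 1] i = (lact 10 f)^[11] i := by decide +kernel

theorem cf3b_aper_3 : ∀ f ∈ (mon3b.drop (10 * 3)).take 10, ∀ i ∈ List.range 11,
    (lact 10 f)^[11 + 1] i = (lact 10 f)^[11] i := by decide +kernel

theorem cf3b_aper_4 : ∀ f ∈ (mon3b.drop (10 * 4)).take 10, ∀ i ∈ List.range 11,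
    (lact 10 f)^[11 + 1] i = (lact 10 f)^[11] i := by decide +kernel

theorem cf3b_aper_5 : ∀ f ∈ (mon3b.drop (10 * 5)).take 10, ∀ i ∈ List.range 11,
    (lact 10 f)^[11 + 1] i = (lact 10 f)^[11] i := by decide +kernel

theorem cf3b_aper_6 : ∀ f ∈ (mon3b.drop (10 * 6)).take 10, ∀ i ∈ List.range 11,
    (lact 10 f)^[11 + 1] i = (lact 10 f)^[11] i := by decide +kernel

theorem cf3b_aper_7 : ∀ f ∈ (mon3b.drop (10 * 7)).take 10, ∀ i ∈ List.range 11,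
    (lact 10 f)^[11 + 1] i = (lact 10 f)^[11] i := by decide +kernel

theorem cf3b_aper_8 : ∀ f ∈ (mon3b.drop (10 * 8)).take 10, ∀ i ∈ List.range 11,
    (lact 10 f)^[11 + 1] i = (lact 10 f)^[11] i := by decide +kernel

theorem cf3b_aper_9 : ∀ f ∈ (mon3b.drop (10 * 9)).take 10, ∀ i ∈ List.range 11,
    (lact 10 f)^[11 + 1] i = (lact 10 f)^[11] i := by decide +kernel

theorem cf3b_aper_10 : ∀ f ∈ (mon3b.drop (10 * 10)).take 10, ∀ i ∈ List.range 11,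
    (lact 10 f)^[11 + 1] i = (lact 10 f)^[11] i := by decide +kernel

theorem cf3b_aper_11 : ∀ f ∈ (mon3b.drop (10 * 11)).take 10, ∀ i ∈ List.range 11,
    (lact 10 f)^[11 + 1] i = (lact 10 f)^[11] i := by decide +kernel

theorem cf3b_aper_12 : ∀ f ∈ (mon3b.drop (10 * 12)).take 10, ∀ i ∈ List.range 11,
    (lact 10 f)^[11 + 1] i = (lact 10 f)^[11] i := by decide +kernel

theorem cf3b_aper_13 : ∀ f ∈ (mon3b.drop (10 * 13)).take 10, ∀ i ∈ List.range 11,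
    (lact 10 f)^[11 + 1] i = (lact 10 f)^[11] i := by decide +kernel

theorem cf3b_aper_14 : ∀ f ∈ (mon3b.drop (10 * 14)).take 10, ∀ i ∈ List.range 11,
    (lact 10 f)^[11 + 1] i = (lact 10 f)^[11] i := by decide +kernel

theorem cf3b_aper_15 : ∀ f ∈ (mon3b.drop (10 * 15)).take 10, ∀ i ∈ List.range 11,
    (lact 10 f)^[11 + 1] i = (lact 10 f)^[11] i := by decide +kernel

theorem cf3b_aper_16 : ∀ f ∈ (mon3b.drop (10 * 16)).take 10, ∀ i ∈ List.range 11,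
    (lact 10 f)^[11 + 1] i = (lact 10 f)^[11] i := by decide +kernel

theorem cf3b_aper_17 : ∀ f ∈ (mon3b.drop (10 * 17)).take 10, ∀ i ∈ List.range 11,
    (lact 10 f)^[11 + 1] i = (lact 10 f)^[11] i := by decide +kernel

theorem cf3b_aper_18 : ∀ f ∈ (mon3b.drop (10 * 18)).take 10, ∀ i ∈ List.range 11,
    (lact 10 f)^[11 + 1] i = (lact 10 f)^[11] i := by decide +kernel

theorem cf3b_aper_19 : ∀ f ∈ (mon3b.drop (10 * 19)).take 10, ∀ i ∈ List.range 11,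
    (lact 10 f)^[11 + 1] i = (lact 10 f)^[11] i := by decide +kernel

theorem cf3b_aper_20 : ∀ f ∈ (mon3b.drop (10 * 20)).take 10, ∀ i ∈ List.range 11,
    (lact 10 f)^[11 + 1] i = (lact 10 f)^[11] i := by decide +kernel

theorem cf3b_aper_21 : ∀ f ∈ (mon3b.drop (10 * 21)).take 10, ∀ i ∈ List.range 11,
    (lact 10 f)^[11 + 1] i = (lact 10 f)^[11] i := by decide +kernel

theorem cf3b_aper_22 : ∀ f ∈ (mon3b.drop (10 * 22)).take 10, ∀ i ∈ List.range 11,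
    (lact 10 f)^[11 + 1] i = (lact 10 f)^[11] i := by decide +kernel

theorem cf3b_aper_23 : ∀ f ∈ (mon3b.drop (10 * 23)).take 10, ∀ i ∈ List.range 11,
    (lact 10 f)^[11 + 1] i = (lact 10 f)^[11] i := by decide +kernel

theorem cf3b_aper_24 : ∀ f ∈ (mon3b.drop (10 * 24)).take 10, ∀ i ∈ List.range 11,
    (lact 10 f)^[11 + 1] i = (lact 10 f)^[11] i := by decide +kernel

theorem cf3b_aper_25 : ∀ f ∈ (mon3b.drop (10 * 25)).take 10, ∀ i ∈ List.range 11,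
    (lact 10 f)^[11 + 1] i = (lact 10 f)^[11] i := by decide +kernel

theorem cf3b_aper_26 : ∀ f ∈ (mon3b.drop (10 * 26)).take 10, ∀ i ∈ List.range 11,
    (lact 10 f)^[11 + 1] i = (lact 10 f)^[11] i := by decide +kernel

theorem cf3b_aper_27 : ∀ f ∈ (mon3b.drop (10 * 27)).take 10, ∀ i ∈ List.range 11,
    (lact 10 f)^[11 + 1] i = (lact 10 f)^[11] i := by decide +kernel

theorem cf3b_aper_28 : ∀ f ∈ (mon3b.drop (10 * 28)).take 10, ∀ i ∈ List.range 11,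
    (lact 10 f)^[11 + 1] i = (lact 10 f)^[11] i := by decide +kernel

theorem cf3b : CounterFree (kill (two 3 (tab 1 2) (tab 3 1))
    (ev2 3 (tab 1 2) (tab 3 1))) := by
  refine counterFree_of_cert _ 11 10 idx2 idx2_inj idx2_lt mon3b gen3b ?_ ?_ ?_ ?_ ?_
  · decide +kernel
  · decide +kernel
  · decide +kernel
  · exact forall_mem_of_chunks _ mon3b 10 29 (by norm_num) (by decide +kernel) (fun j hj => by
      interval_cases j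
      · exact cf3b_closed_0
      · exact cf3b_closed_1
      · exact cf3b_closed_2
      · exact cf3b_closed_3
      · exact cf3b_closed_4
      · exact cf3b_closed_5
      · exact cf3b_closed_6
      · exact cf3b_closed_7
      · exact cf3b_closed_8
      · exact cf3b_closed_9
      · exact cf3b_closed_10
      · exact cf3b_closed_11
      · exact cf3b_closed_12
      · exact cf3b_closed_13
      · exact cf3b_closed_14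
      · exact cf3b_closed_15
      · exact cf3b_closed_16
      · exact cf3b_closed_17
      · exact cf3b_closed_18
      · exact cf3b_closed_19
      · exact cf3b_closed_20
      · exact cf3b_closed_21
      · exact cf3b_closed_22
      · exact cf3b_closed_23
      · exact cf3b_closed_24
      · exact cf3b_closed_25
      · exact cf3b_closed_26
      · exact cf3b_closed_27
      · exact cf3b_closed_28)
  · exact forall_mem_of_chunks _ mon3b 10 29 (by norm_num) (by decide +kernel) (fun j hj => by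
      interval_cases j
      · exact cf3b_aper_0
      · exact cf3b_aper_1
      · exact cf3b_aper_2
      · exact cf3b_aper_3
      · exact cf3b_aper_4
      · exact cf3b_aper_5
      · exact cf3b_aper_6
      · exact cf3b_aper_7
      · exact cf3b_aper_8
      · exact cf3b_aper_9
      · exact cf3b_aper_10
      · exact cf3b_aper_11
      · exact cf3b_aper_12
      · exact cf3b_aper_13
      · exact cf3b_aper_14
      · exact cf3b_aper_15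
      · exact cf3b_aper_16
      · exact cf3b_aper_17
      · exact cf3b_aper_18
      · exact cf3b_aper_19
      · exact cf3b_aper_20
      · exact cf3b_aper_21
      · exact cf3b_aper_22
      · exact cf3b_aper_23
      · exact cf3b_aper_24
      · exact cf3b_aper_25
      · exact cf3b_aper_26
      · exact cf3b_aper_27
      · exact cf3b_aper_28)

def gen3c : List (List ℕ) := [
  [1, 4, 2, 10, 3, 3, 1, 4, 2, 10, 10], [7, 6, 5, 9, 8, 3, 2, 1, 10, 4, 10], [0, 1, 2, 3, 4, 5, 6, 7, 8, 9, 10]]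

def mon3c : List (List ℕ) := [
  [0, 1, 2, 3, 4, 5, 6, 7, 8, 9, 10], [1, 4, 2, 10, 3, 3, 1, 4, 2, 10, 10], [7, 6, 5, 9, 8, 3, 2, 1, 10, 4, 10],
  [4, 3, 2, 10, 10, 10, 4, 3, 2, 10, 10], [6, 8, 5, 10, 9, 9, 6, 8, 5, 10, 10], [4, 1, 3, 10, 2, 10, 2, 4, 10, 3, 10],
  [1, 2, 3, 4, 10, 9, 5, 6, 10, 8, 10], [3, 10, 2, 10, 10, 10, 3, 10, 2, 10, 10], [8, 9, 5, 10, 10, 10, 8, 9, 5, 10, 10],
  [1, 2, 3, 10, 10, 10, 1, 2, 3, 10, 10], [2, 10, 3, 10, 4, 4, 2, 10, 3, 10, 10], [3, 4, 10, 10, 2, 10, 2, 3, 10, 10, 10],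
  [8, 6, 9, 10, 5, 10, 5, 8, 10, 9, 10], [4, 2, 10, 3, 10, 10, 3, 1, 10, 2, 10], [6, 5, 9, 8, 10, 4, 3, 2, 10, 10, 10],
  [10, 10, 2, 10, 10, 10, 10, 10, 2, 10, 10], [9, 10, 5, 10, 10, 10, 9, 10, 5, 10, 10], [2, 10, 3, 10, 10, 10, 2, 10, 3, 10, 10],
  [10, 4, 3, 10, 10, 10, 10, 4, 3, 10, 10], [4, 2, 10, 10, 10, 10, 4, 2, 10, 10, 10], [6, 5, 9, 10, 10, 10, 6, 5, 9, 10, 10],
  [2, 10, 10, 10, 3, 3, 2, 10, 10, 10, 10], [5, 10, 9, 10, 8, 8, 5, 10, 9, 10, 10], [10, 3, 10, 10, 2, 10, 2, 10, 10, 10, 10],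
  [9, 8, 10, 10, 5, 10, 5, 9, 10, 10, 10], [2, 1, 10, 10, 3, 10, 3, 2, 10, 10, 10], [10, 2, 4, 10, 3, 10, 3, 10, 10, 4, 10],
  [3, 2, 10, 10, 10, 10, 10, 4, 10, 2, 10], [8, 5, 10, 9, 10, 10, 9, 6, 10, 5, 10], [1, 3, 10, 2, 10, 3, 10, 2, 10, 10, 10],
  [2, 3, 4, 10, 10, 8, 9, 5, 10, 10, 10], [10, 10, 5, 10, 10, 10, 10, 10, 5, 10, 10], [10, 10, 3, 10, 10, 10, 10, 10, 3, 10, 10],
  [4, 10, 3, 10, 10, 10, 4, 10, 3, 10, 10], [2, 10, 10, 10, 10, 10, 2, 10, 10, 10, 10], [5, 10, 9, 10, 10, 10, 5, 10, 9, 10, 10],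
  [10, 3, 10, 10, 10, 10, 10, 3, 10, 10, 10], [10, 8, 9, 10, 10, 10, 10, 8, 9, 10, 10], [3, 2, 10, 10, 10, 10, 3, 2, 10, 10, 10],
  [8, 5, 10, 10, 10, 10, 8, 5, 10, 10, 10], [1, 3, 10, 10, 10, 10, 1, 3, 10, 10, 10], [2, 3, 4, 10, 10, 10, 2, 3, 4, 10, 10],
  [5, 10, 10, 10, 9, 9, 5, 10, 10, 10, 10], [3, 10, 10, 10, 2, 2, 3, 10, 10, 10, 10], [3, 10, 4, 10, 10, 10, 3, 10, 4, 10, 10],
  [10, 10, 10, 10, 2, 10, 2, 10, 10, 10, 10], [10, 9, 10, 10, 5, 10, 5, 10, 10, 10, 10], [10, 2, 10, 10, 3, 10, 3, 10, 10, 10, 10],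
  [4, 10, 10, 10, 3, 10, 3, 4, 10, 10, 10], [2, 4, 10, 10, 10, 10, 10, 2, 10, 10, 10], [5, 6, 10, 10, 9, 10, 9, 5, 10, 10, 10],
  [10, 2, 3, 10, 10, 10, 10, 10, 10, 3, 10], [10, 5, 8, 10, 9, 10, 9, 10, 10, 8, 10], [10, 2, 10, 10, 10, 10, 10, 3, 10, 2, 10],
  [9, 5, 10, 10, 10, 10, 10, 8, 10, 5, 10], [2, 3, 10, 10, 10, 10, 10, 1, 10, 3, 10], [10, 3, 10, 4, 10, 10, 4, 2, 10, 3, 10],
  [4, 10, 10, 2, 10, 10, 10, 2, 10, 10, 10], [6, 9, 10, 5, 10, 9, 10, 5, 10, 10, 10], [2, 10, 3, 10, 10, 2, 10, 3, 10, 10, 10],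
  [5, 9, 8, 10, 10, 10, 4, 3, 10, 10, 10], [10, 10, 10, 10, 10, 10, 10, 10, 10, 10, 10], [10, 10, 9, 10, 10, 10, 10, 10, 9, 10, 10],
  [3, 10, 10, 10, 10, 10, 3, 10, 10, 10, 10], [8, 10, 9, 10, 10, 10, 8, 10, 9, 10, 10], [5, 10, 10, 10, 10, 10, 5, 10, 10, 10, 10],
  [10, 9, 10, 10, 10, 10, 10, 9, 10, 10, 10], [10, 2, 10, 10, 10, 10, 10, 2, 10, 10, 10], [10, 10, 4, 10, 10, 10, 10, 10, 4, 10, 10],
  [9, 5, 10, 10, 10, 10, 9, 5, 10, 10, 10], [2, 3, 10, 10, 10, 10, 2, 3, 10, 10, 10], [4, 10, 10, 10, 10, 10, 4, 10, 10, 10, 10],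
  [6, 9, 10, 10, 10, 10, 6, 9, 10, 10, 10], [5, 9, 8, 10, 10, 10, 5, 9, 8, 10, 10], [3, 10, 10, 10, 4, 4, 3, 10, 10, 10, 10],
  [10, 10, 10, 10, 2, 2, 10, 10, 10, 10, 10], [9, 10, 10, 10, 5, 5, 9, 10, 10, 10, 10], [9, 10, 8, 10, 10, 10, 9, 10, 8, 10, 10],
  [10, 10, 10, 10, 5, 10, 5, 10, 10, 10, 10], [10, 10, 10, 10, 3, 10, 3, 10, 10, 10, 10], [10, 4, 10, 10, 3, 10, 3, 10, 10, 10, 10],
  [10, 2, 10, 10, 10, 10, 10, 10, 10, 10, 10], [10, 5, 10, 10, 9, 10, 9, 10, 10, 10, 10], [3, 10, 10, 10, 10, 10, 10, 3, 10, 10, 10],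
  [8, 10, 10, 10, 9, 10, 9, 8, 10, 10, 10], [2, 3, 10, 10, 10, 10, 10, 2, 10, 10, 10], [5, 8, 10, 10, 10, 10, 10, 5, 10, 10, 10],
  [3, 1, 10, 10, 10, 10, 10, 3, 10, 10, 10], [3, 2, 10, 10, 4, 10, 4, 3, 10, 10, 10], [10, 5, 9, 10, 10, 10, 10, 10, 10, 9, 10],
  [10, 3, 2, 10, 10, 10, 10, 10, 10, 2, 10], [10, 3, 10, 10, 4, 10, 4, 10, 10, 10, 10], [10, 2, 10, 10, 10, 10, 10, 10, 10, 2, 10],
  [10, 5, 10, 10, 10, 10, 10, 9, 10, 5, 10], [10, 3, 10, 10, 10, 10, 10, 2, 10, 3, 10], [4, 3, 10, 10, 10, 10, 10, 10, 10, 3, 10],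
  [2, 10, 10, 10, 10, 10, 10, 4, 10, 10, 10], [5, 9, 10, 10, 10, 10, 10, 6, 10, 9, 10], [10, 10, 10, 3, 10, 10, 3, 2, 10, 10, 10],
  [10, 9, 10, 8, 10, 10, 8, 5, 10, 9, 10], [3, 10, 10, 2, 10, 10, 10, 2, 10, 10, 10], [8, 10, 10, 5, 10, 10, 10, 5, 10, 10, 10],
  [1, 10, 10, 3, 10, 10, 10, 3, 10, 10, 10], [2, 4, 10, 3, 10, 4, 10, 3, 10, 10, 10], [2, 10, 10, 10, 10, 2, 10, 10, 10, 10, 10],
  [5, 10, 9, 10, 10, 5, 10, 9, 10, 10, 10], [3, 10, 2, 10, 10, 10, 3, 10, 10, 10, 10], [3, 4, 10, 10, 10, 10, 8, 9, 10, 10, 10],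
  [9, 10, 10, 10, 10, 10, 9, 10, 10, 10, 10], [10, 4, 10, 10, 10, 10, 10, 4, 10, 10, 10], [10, 5, 10, 10, 10, 10, 10, 5, 10, 10, 10],
  [10, 10, 8, 10, 10, 10, 10, 10, 8, 10, 10], [4, 3, 10, 10, 10, 10, 4, 3, 10, 10, 10], [5, 9, 10, 10, 10, 10, 5, 9, 10, 10, 10],
  [8, 10, 10, 10, 10, 10, 8, 10, 10, 10, 10], [1, 10, 10, 10, 10, 10, 1, 10, 10, 10, 10], [2, 4, 10, 10, 10, 10, 2, 4, 10, 10, 10],
  [3, 4, 10, 10, 10, 10, 3, 4, 10, 10, 10], [10, 10, 10, 10, 3, 3, 10, 10, 10, 10, 10], [9, 10, 10, 10, 8, 8, 9, 10, 10, 10, 10],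
  [10, 10, 10, 10, 5, 5, 10, 10, 10, 10, 10], [4, 10, 10, 10, 3, 3, 4, 10, 10, 10, 10], [10, 10, 10, 10, 9, 10, 9, 10, 10, 10, 10],
  [10, 3, 10, 10, 10, 10, 10, 10, 10, 10, 10], [10, 8, 10, 10, 9, 10, 9, 10, 10, 10, 10], [10, 5, 10, 10, 10, 10, 10, 10, 10, 10, 10],
  [9, 10, 10, 10, 10, 10, 10, 9, 10, 10, 10], [2, 10, 10, 10, 10, 10, 10, 2, 10, 10, 10], [10, 10, 10, 10, 4, 10, 4, 10, 10, 10, 10],
  [5, 9, 10, 10, 10, 10, 10, 5, 10, 10, 10], [3, 2, 10, 10, 10, 10, 10, 3, 10, 10, 10], [10, 4, 10, 10, 10, 10, 10, 10, 10, 10, 10],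
  [9, 6, 10, 10, 10, 10, 10, 9, 10, 10, 10], [9, 5, 10, 10, 8, 10, 8, 9, 10, 10, 10], [10, 3, 4, 10, 10, 10, 10, 10, 10, 4, 10],
  [10, 10, 2, 10, 10, 10, 10, 10, 10, 2, 10], [10, 9, 5, 10, 10, 10, 10, 10, 10, 5, 10], [10, 9, 10, 10, 8, 10, 8, 10, 10, 10, 10],
  [10, 5, 10, 10, 10, 10, 10, 10, 10, 5, 10], [10, 3, 10, 10, 10, 10, 10, 10, 10, 3, 10], [10, 3, 10, 10, 10, 10, 10, 4, 10, 3, 10],
  [10, 10, 10, 10, 10, 10, 10, 2, 10, 10, 10], [10, 9, 10, 10, 10, 10, 10, 5, 10, 9, 10], [3, 10, 10, 10, 10, 10, 10, 10, 10, 10, 10],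
  [8, 9, 10, 10, 10, 10, 10, 10, 10, 9, 10], [2, 10, 10, 10, 10, 10, 10, 3, 10, 10, 10], [5, 10, 10, 10, 10, 10, 10, 8, 10, 10, 10],
  [3, 10, 10, 10, 10, 10, 10, 1, 10, 10, 10], [3, 4, 10, 10, 10, 10, 10, 2, 10, 4, 10], [10, 10, 10, 9, 10, 10, 9, 5, 10, 10, 10],
  [10, 10, 10, 2, 10, 10, 2, 3, 10, 10, 10], [10, 4, 10, 10, 10, 10, 10, 3, 10, 4, 10], [10, 10, 10, 2, 10, 10, 10, 2, 10, 10, 10],
  [9, 10, 10, 5, 10, 10, 10, 5, 10, 10, 10], [2, 10, 10, 3, 10, 10, 10, 3, 10, 10, 10], [10, 10, 10, 3, 10, 10, 10, 3, 10, 10, 10],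
  [4, 10, 10, 10, 10, 10, 10, 10, 10, 10, 10], [6, 10, 10, 9, 10, 10, 10, 9, 10, 10, 10], [2, 3, 10, 10, 10, 3, 10, 10, 10, 10, 10],
  [5, 8, 10, 9, 10, 8, 10, 9, 10, 10, 10], [5, 10, 10, 10, 10, 5, 10, 10, 10, 10, 10], [3, 10, 10, 10, 10, 3, 10, 10, 10, 10, 10],
  [3, 10, 4, 10, 10, 3, 10, 4, 10, 10, 10], [10, 10, 2, 10, 10, 10, 10, 10, 10, 10, 10], [9, 10, 5, 10, 10, 10, 9, 10, 10, 10, 10],
  [10, 3, 10, 10, 10, 10, 2, 10, 10, 10, 10], [9, 8, 10, 10, 10, 10, 10, 4, 10, 10, 10], [10, 8, 10, 10, 10, 10, 10, 8, 10, 10, 10],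
  [8, 9, 10, 10, 10, 10, 8, 9, 10, 10, 10], [6, 10, 10, 10, 10, 10, 6, 10, 10, 10, 10], [5, 8, 10, 10, 10, 10, 5, 8, 10, 10, 10],
  [9, 8, 10, 10, 10, 10, 9, 8, 10, 10, 10], [10, 10, 10, 10, 9, 9, 10, 10, 10, 10, 10], [8, 10, 10, 10, 9, 9, 8, 10, 10, 10, 10],
  [10, 9, 10, 10, 10, 10, 10, 10, 10, 10, 10], [4, 10, 10, 10, 10, 10, 10, 4, 10, 10, 10], [5, 10, 10, 10, 10, 10, 10, 5, 10, 10, 10],
  [10, 10, 10, 10, 8, 10, 8, 10, 10, 10, 10], [3, 4, 10, 10, 10, 10, 10, 3, 10, 10, 10], [9, 5, 10, 10, 10, 10, 10, 9, 10, 10, 10],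
  [10, 8, 10, 10, 10, 10, 10, 10, 10, 10, 10], [10, 1, 10, 10, 10, 10, 10, 10, 10, 10, 10], [4, 2, 10, 10, 10, 10, 10, 4, 10, 10, 10],
  [4, 3, 10, 10, 10, 10, 10, 4, 10, 10, 10], [10, 10, 3, 10, 10, 10, 10, 10, 10, 3, 10], [10, 9, 8, 10, 10, 10, 10, 10, 10, 8, 10],
  [10, 10, 5, 10, 10, 10, 10, 10, 10, 5, 10], [10, 4, 3, 10, 10, 10, 10, 10, 10, 3, 10], [10, 9, 10, 10, 10, 10, 10, 10, 10, 9, 10],
  [10, 10, 10, 10, 10, 10, 10, 3, 10, 10, 10], [10, 9, 10, 10, 10, 10, 10, 8, 10, 9, 10], [10, 10, 10, 10, 10, 10, 10, 5, 10, 10, 10],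
  [9, 10, 10, 10, 10, 10, 10, 10, 10, 10, 10], [2, 10, 10, 10, 10, 10, 10, 10, 10, 10, 10], [10, 4, 10, 10, 10, 10, 10, 10, 10, 4, 10],
  [5, 10, 10, 10, 10, 10, 10, 9, 10, 10, 10], [3, 10, 10, 10, 10, 10, 10, 2, 10, 10, 10], [10, 10, 10, 10, 10, 10, 10, 4, 10, 10, 10],
  [9, 10, 10, 10, 10, 10, 10, 6, 10, 10, 10], [9, 8, 10, 10, 10, 10, 10, 5, 10, 8, 10], [10, 10, 10, 4, 10, 10, 4, 3, 10, 10, 10],
  [10, 10, 10, 2, 10, 10, 2, 10, 10, 10, 10], [10, 10, 10, 5, 10, 10, 5, 9, 10, 10, 10], [10, 8, 10, 10, 10, 10, 10, 9, 10, 8, 10],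
  [10, 10, 10, 5, 10, 10, 10, 5, 10, 10, 10], [4, 10, 10, 3, 10, 10, 10, 3, 10, 10, 10], [5, 10, 10, 9, 10, 10, 10, 9, 10, 10, 10],
  [10, 10, 10, 9, 10, 10, 10, 9, 10, 10, 10], [8, 10, 10, 10, 10, 10, 10, 10, 10, 10, 10], [1, 10, 10, 10, 10, 10, 10, 10, 10, 10, 10],
  [2, 10, 10, 4, 10, 10, 10, 4, 10, 10, 10], [5, 9, 10, 10, 10, 9, 10, 10, 10, 10, 10], [3, 2, 10, 10, 10, 2, 10, 10, 10, 10, 10],
  [3, 10, 10, 4, 10, 10, 10, 4, 10, 10, 10], [9, 10, 10, 10, 10, 9, 10, 10, 10, 10, 10], [10, 10, 3, 10, 10, 10, 10, 3, 10, 10, 10],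
  [9, 10, 8, 10, 10, 9, 10, 8, 10, 10, 10], [10, 10, 5, 10, 10, 10, 10, 10, 10, 10, 10], [10, 10, 3, 10, 10, 10, 10, 10, 10, 10, 10],
  [4, 10, 3, 10, 10, 10, 4, 10, 10, 10, 10], [10, 10, 10, 10, 10, 10, 2, 10, 10, 10, 10], [10, 9, 10, 10, 10, 10, 5, 10, 10, 10, 10],
  [10, 2, 10, 10, 10, 10, 10, 3, 10, 10, 10], [4, 10, 10, 10, 10, 10, 10, 8, 10, 10, 10], [10, 10, 10, 10, 4, 4, 10, 10, 10, 10, 10],
  [8, 10, 10, 10, 10, 10, 10, 8, 10, 10, 10], [9, 8, 10, 10, 10, 10, 10, 9, 10, 10, 10], [10, 6, 10, 10, 10, 10, 10, 10, 10, 10, 10],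
  [8, 5, 10, 10, 10, 10, 10, 8, 10, 10, 10], [8, 9, 10, 10, 10, 10, 10, 8, 10, 10, 10], [10, 10, 9, 10, 10, 10, 10, 10, 10, 9, 10],
  [10, 8, 9, 10, 10, 10, 10, 10, 10, 9, 10], [10, 10, 10, 10, 10, 10, 10, 9, 10, 10, 10], [5, 10, 10, 10, 10, 10, 10, 10, 10, 10, 10],
  [10, 8, 10, 10, 10, 10, 10, 10, 10, 8, 10], [3, 10, 10, 10, 10, 10, 10, 4, 10, 10, 10], [9, 10, 10, 10, 10, 10, 10, 5, 10, 10, 10],
  [10, 10, 10, 10, 10, 10, 10, 8, 10, 10, 10], [10, 10, 10, 10, 10, 10, 10, 1, 10, 10, 10], [4, 10, 10, 10, 10, 10, 10, 2, 10, 10, 10],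
  [4, 10, 10, 10, 10, 10, 10, 3, 10, 10, 10], [10, 10, 10, 3, 10, 10, 3, 10, 10, 10, 10], [10, 10, 10, 8, 10, 10, 8, 9, 10, 10, 10],
  [10, 10, 10, 5, 10, 10, 5, 10, 10, 10, 10], [10, 10, 10, 3, 10, 10, 3, 4, 10, 10, 10], [8, 10, 10, 9, 10, 10, 10, 9, 10, 10, 10],
  [10, 10, 10, 4, 10, 10, 10, 4, 10, 10, 10], [6, 10, 10, 10, 10, 10, 10, 10, 10, 10, 10], [5, 10, 10, 8, 10, 10, 10, 8, 10, 10, 10],
  [3, 4, 10, 10, 10, 4, 10, 10, 10, 10, 10], [10, 2, 10, 10, 10, 2, 10, 10, 10, 10, 10], [9, 5, 10, 10, 10, 5, 10, 10, 10, 10, 10],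
  [9, 10, 10, 8, 10, 10, 10, 8, 10, 10, 10], [4, 10, 10, 10, 10, 4, 10, 10, 10, 10, 10], [10, 10, 9, 10, 10, 10, 10, 9, 10, 10, 10],
  [10, 10, 2, 10, 10, 10, 10, 2, 10, 10, 10], [10, 10, 9, 10, 10, 10, 10, 10, 10, 10, 10], [8, 10, 9, 10, 10, 10, 8, 10, 10, 10, 10],
  [10, 10, 10, 10, 10, 10, 5, 10, 10, 10, 10], [10, 10, 10, 10, 10, 10, 3, 10, 10, 10, 10], [10, 4, 10, 10, 10, 10, 3, 10, 10, 10, 10],
  [10, 5, 10, 10, 10, 10, 10, 9, 10, 10, 10], [10, 10, 10, 10, 8, 8, 10, 10, 10, 10, 10], [10, 10, 4, 10, 10, 10, 10, 10, 10, 4, 10],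
  [9, 10, 10, 10, 10, 10, 10, 8, 10, 10, 10], [10, 10, 10, 10, 10, 10, 10, 6, 10, 10, 10], [8, 10, 10, 10, 10, 10, 10, 5, 10, 10, 10],
  [8, 10, 10, 10, 10, 10, 10, 9, 10, 10, 10], [10, 10, 10, 9, 10, 10, 9, 10, 10, 10, 10], [10, 10, 10, 9, 10, 10, 9, 8, 10, 10, 10],
  [10, 10, 10, 8, 10, 10, 10, 8, 10, 10, 10], [10, 3, 10, 10, 10, 3, 10, 10, 10, 10, 10], [9, 8, 10, 10, 10, 8, 10, 10, 10, 10, 10],
  [10, 5, 10, 10, 10, 5, 10, 10, 10, 10, 10], [4, 3, 10, 10, 10, 3, 10, 10, 10, 10, 10], [8, 10, 10, 10, 10, 8, 10, 10, 10, 10, 10],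
  [10, 10, 4, 10, 10, 10, 10, 4, 10, 10, 10], [10, 10, 5, 10, 10, 10, 10, 5, 10, 10, 10], [10, 10, 4, 10, 10, 10, 10, 10, 10, 10, 10],
  [10, 10, 10, 10, 10, 10, 9, 10, 10, 10, 10], [10, 8, 10, 10, 10, 10, 9, 10, 10, 10, 10], [10, 3, 10, 10, 10, 10, 10, 4, 10, 10, 10],
  [10, 10, 8, 10, 10, 10, 10, 10, 10, 8, 10], [10, 10, 10, 4, 10, 10, 4, 10, 10, 10, 10], [10, 9, 10, 10, 10, 9, 10, 10, 10, 10, 10],
  [8, 9, 10, 10, 10, 9, 10, 10, 10, 10, 10], [10, 10, 8, 10, 10, 10, 10, 8, 10, 10, 10], [10, 10, 8, 10, 10, 10, 10, 10, 10, 10, 10],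
  [10, 10, 10, 10, 10, 10, 4, 10, 10, 10, 10], [10, 9, 10, 10, 10, 10, 10, 8, 10, 10, 10], [10, 10, 10, 8, 10, 10, 8, 10, 10, 10, 10],
  [10, 4, 10, 10, 10, 4, 10, 10, 10, 10, 10], [10, 10, 10, 10, 10, 10, 8, 10, 10, 10, 10], [10, 8, 10, 10, 10, 8, 10, 10, 10, 10, 10]]

theorem cf3c_closed_0 : ∀ f ∈ (mon3c.drop (10 * 0)).take 10, ∀ g ∈ gen3c,
    f.map (lact 10 g) ∈ mon3c := by decide +kernel

theorem cf3c_closed_1 : ∀ f ∈ (mon3c.drop (10 * 1)).take 10, ∀ g ∈ gen3c,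
    f.map (lact 10 g) ∈ mon3c := by decide +kernel

theorem cf3c_closed_2 : ∀ f ∈ (mon3c.drop (10 * 2)).take 10, ∀ g ∈ gen3c,
    f.map (lact 10 g) ∈ mon3c := by decide +kernel

theorem cf3c_closed_3 : ∀ f ∈ (mon3c.drop (10 * 3)).take 10, ∀ g ∈ gen3c,
    f.map (lact 10 g) ∈ mon3c := by decide +kernel

theorem cf3c_closed_4 : ∀ f ∈ (mon3c.drop (10 * 4)).take 10, ∀ g ∈ gen3c,
    f.map (lact 10 g) ∈ mon3c := by decide +kernel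

theorem cf3c_closed_5 : ∀ f ∈ (mon3c.drop (10 * 5)).take 10, ∀ g ∈ gen3c,
    f.map (lact 10 g) ∈ mon3c := by decide +kernel

theorem cf3c_closed_6 : ∀ f ∈ (mon3c.drop (10 * 6)).take 10, ∀ g ∈ gen3c,
    f.map (lact 10 g) ∈ mon3c := by decide +kernel

theorem cf3c_closed_7 : ∀ f ∈ (mon3c.drop (10 * 7)).take 10, ∀ g ∈ gen3c,
    f.map (lact 10 g) ∈ mon3c := by decide +kernel

theorem cf3c_closed_8 : ∀ f ∈ (mon3c.drop (10 * 8)).take 10, ∀ g ∈ gen3c,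
    f.map (lact 10 g) ∈ mon3c := by decide +kernel

theorem cf3c_closed_9 : ∀ f ∈ (mon3c.drop (10 * 9)).take 10, ∀ g ∈ gen3c,
    f.map (lact 10 g) ∈ mon3c := by decide +kernel

theorem cf3c_closed_10 : ∀ f ∈ (mon3c.drop (10 * 10)).take 10, ∀ g ∈ gen3c,
    f.map (lact 10 g) ∈ mon3c := by decide +kernel

theorem cf3c_closed_11 : ∀ f ∈ (mon3c.drop (10 * 11)).take 10, ∀ g ∈ gen3c,
    f.map (lact 10 g) ∈ mon3c := by decide +kernel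

theorem cf3c_closed_12 : ∀ f ∈ (mon3c.drop (10 * 12)).take 10, ∀ g ∈ gen3c,
    f.map (lact 10 g) ∈ mon3c := by decide +kernel

theorem cf3c_closed_13 : ∀ f ∈ (mon3c.drop (10 * 13)).take 10, ∀ g ∈ gen3c,
    f.map (lact 10 g) ∈ mon3c := by decide +kernel

theorem cf3c_closed_14 : ∀ f ∈ (mon3c.drop (10 * 14)).take 10, ∀ g ∈ gen3c,
    f.map (lact 10 g) ∈ mon3c := by decide +kernel

theorem cf3c_closed_15 : ∀ f ∈ (mon3c.drop (10 * 15)).take 10, ∀ g ∈ gen3c,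
    f.map (lact 10 g) ∈ mon3c := by decide +kernel

theorem cf3c_closed_16 : ∀ f ∈ (mon3c.drop (10 * 16)).take 10, ∀ g ∈ gen3c,
    f.map (lact 10 g) ∈ mon3c := by decide +kernel

theorem cf3c_closed_17 : ∀ f ∈ (mon3c.drop (10 * 17)).take 10, ∀ g ∈ gen3c,
    f.map (lact 10 g) ∈ mon3c := by decide +kernel

theorem cf3c_closed_18 : ∀ f ∈ (mon3c.drop (10 * 18)).take 10, ∀ g ∈ gen3c,
    f.map (lact 10 g) ∈ mon3c := by decide +kernel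

theorem cf3c_closed_19 : ∀ f ∈ (mon3c.drop (10 * 19)).take 10, ∀ g ∈ gen3c,
    f.map (lact 10 g) ∈ mon3c := by decide +kernel

theorem cf3c_closed_20 : ∀ f ∈ (mon3c.drop (10 * 20)).take 10, ∀ g ∈ gen3c,
    f.map (lact 10 g) ∈ mon3c := by decide +kernel

theorem cf3c_closed_21 : ∀ f ∈ (mon3c.drop (10 * 21)).take 10, ∀ g ∈ gen3c,
    f.map (lact 10 g) ∈ mon3c := by decide +kernel

theorem cf3c_closed_22 : ∀ f ∈ (mon3c.drop (10 * 22)).take 10, ∀ g ∈ gen3c,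
    f.map (lact 10 g) ∈ mon3c := by decide +kernel

theorem cf3c_closed_23 : ∀ f ∈ (mon3c.drop (10 * 23)).take 10, ∀ g ∈ gen3c,
    f.map (lact 10 g) ∈ mon3c := by decide +kernel

theorem cf3c_closed_24 : ∀ f ∈ (mon3c.drop (10 * 24)).take 10, ∀ g ∈ gen3c,
    f.map (lact 10 g) ∈ mon3c := by decide +kernel

theorem cf3c_closed_25 : ∀ f ∈ (mon3c.drop (10 * 25)).take 10, ∀ g ∈ gen3c,
    f.map (lact 10 g) ∈ mon3c := by decide +kernel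

theorem cf3c_closed_26 : ∀ f ∈ (mon3c.drop (10 * 26)).take 10, ∀ g ∈ gen3c,
    f.map (lact 10 g) ∈ mon3c := by decide +kernel

theorem cf3c_closed_27 : ∀ f ∈ (mon3c.drop (10 * 27)).take 10, ∀ g ∈ gen3c,
    f.map (lact 10 g) ∈ mon3c := by decide +kernel

theorem cf3c_closed_28 : ∀ f ∈ (mon3c.drop (10 * 28)).take 10, ∀ g ∈ gen3c,
    f.map (lact 10 g) ∈ mon3c := by decide +kernel

theorem cf3c_closed_29 : ∀ f ∈ (mon3c.drop (10 * 29)).take 10, ∀ g ∈ gen3c,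
    f.map (lact 10 g) ∈ mon3c := by decide +kernel

theorem cf3c_aper_0 : ∀ f ∈ (mon3c.drop (10 * 0)).take 10, ∀ i ∈ List.range 11,
    (lact 10 f)^[11 + 1] i = (lact 10 f)^[11] i := by decide +kernel

theorem cf3c_aper_1 : ∀ f ∈ (mon3c.drop (10 * 1)).take 10, ∀ i ∈ List.range 11,
    (lact 10 f)^[11 + 1] i = (lact 10 f)^[11] i := by decide +kernel

theorem cf3c_aper_2 : ∀ f ∈ (mon3c.drop (10 * 2)).take 10, ∀ i ∈ List.range 11,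
    (lact 10 f)^[11 + 1] i = (lact 10 f)^[11] i := by decide +kernel

theorem cf3c_aper_3 : ∀ f ∈ (mon3c.drop (10 * 3)).take 10, ∀ i ∈ List.range 11,
    (lact 10 f)^[11 + 1] i = (lact 10 f)^[11] i := by decide +kernel

theorem cf3c_aper_4 : ∀ f ∈ (mon3c.drop (10 * 4)).take 10, ∀ i ∈ List.range 11,
    (lact 10 f)^[11 + 1] i = (lact 10 f)^[11] i := by decide +kernel

theorem cf3c_aper_5 : ∀ f ∈ (mon3c.drop (10 * 5)).take 10, ∀ i ∈ List.range 11,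
    (lact 10 f)^[11 + 1] i = (lact 10 f)^[11] i := by decide +kernel

theorem cf3c_aper_6 : ∀ f ∈ (mon3c.drop (10 * 6)).take 10, ∀ i ∈ List.range 11,
    (lact 10 f)^[11 + 1] i = (lact 10 f)^[11] i := by decide +kernel

theorem cf3c_aper_7 : ∀ f ∈ (mon3c.drop (10 * 7)).take 10, ∀ i ∈ List.range 11,
    (lact 10 f)^[11 + 1] i = (lact 10 f)^[11] i := by decide +kernel

theorem cf3c_aper_8 : ∀ f ∈ (mon3c.drop (10 * 8)).take 10, ∀ i ∈ List.range 11,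
    (lact 10 f)^[11 + 1] i = (lact 10 f)^[11] i := by decide +kernel

theorem cf3c_aper_9 : ∀ f ∈ (mon3c.drop (10 * 9)).take 10, ∀ i ∈ List.range 11,
    (lact 10 f)^[11 + 1] i = (lact 10 f)^[11] i := by decide +kernel

theorem cf3c_aper_10 : ∀ f ∈ (mon3c.drop (10 * 10)).take 10, ∀ i ∈ List.range 11,
    (lact 10 f)^[11 + 1] i = (lact 10 f)^[11] i := by decide +kernel

theorem cf3c_aper_11 : ∀ f ∈ (mon3c.drop (10 * 11)).take 10, ∀ i ∈ List.range 11,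
    (lact 10 f)^[11 + 1] i = (lact 10 f)^[11] i := by decide +kernel

theorem cf3c_aper_12 : ∀ f ∈ (mon3c.drop (10 * 12)).take 10, ∀ i ∈ List.range 11,
    (lact 10 f)^[11 + 1] i = (lact 10 f)^[11] i := by decide +kernel

theorem cf3c_aper_13 : ∀ f ∈ (mon3c.drop (10 * 13)).take 10, ∀ i ∈ List.range 11,
    (lact 10 f)^[11 + 1] i = (lact 10 f)^[11] i := by decide +kernel

theorem cf3c_aper_14 : ∀ f ∈ (mon3c.drop (10 * 14)).take 10, ∀ i ∈ List.range 11,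
    (lact 10 f)^[11 + 1] i = (lact 10 f)^[11] i := by decide +kernel

theorem cf3c_aper_15 : ∀ f ∈ (mon3c.drop (10 * 15)).take 10, ∀ i ∈ List.range 11,
    (lact 10 f)^[11 + 1] i = (lact 10 f)^[11] i := by decide +kernel

theorem cf3c_aper_16 : ∀ f ∈ (mon3c.drop (10 * 16)).take 10, ∀ i ∈ List.range 11,
    (lact 10 f)^[11 + 1] i = (lact 10 f)^[11] i := by decide +kernel

theorem cf3c_aper_17 : ∀ f ∈ (mon3c.drop (10 * 17)).take 10, ∀ i ∈ List.range 11,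
    (lact 10 f)^[11 + 1] i = (lact 10 f)^[11] i := by decide +kernel

theorem cf3c_aper_18 : ∀ f ∈ (mon3c.drop (10 * 18)).take 10, ∀ i ∈ List.range 11,
    (lact 10 f)^[11 + 1] i = (lact 10 f)^[11] i := by decide +kernel

theorem cf3c_aper_19 : ∀ f ∈ (mon3c.drop (10 * 19)).take 10, ∀ i ∈ List.range 11,
    (lact 10 f)^[11 + 1] i = (lact 10 f)^[11] i := by decide +kernel

theorem cf3c_aper_20 : ∀ f ∈ (mon3c.drop (10 * 20)).take 10, ∀ i ∈ List.range 11,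
    (lact 10 f)^[11 + 1] i = (lact 10 f)^[11] i := by decide +kernel

theorem cf3c_aper_21 : ∀ f ∈ (mon3c.drop (10 * 21)).take 10, ∀ i ∈ List.range 11,
    (lact 10 f)^[11 + 1] i = (lact 10 f)^[11] i := by decide +kernel

theorem cf3c_aper_22 : ∀ f ∈ (mon3c.drop (10 * 22)).take 10, ∀ i ∈ List.range 11,
    (lact 10 f)^[11 + 1] i = (lact 10 f)^[11] i := by decide +kernel

theorem cf3c_aper_23 : ∀ f ∈ (mon3c.drop (10 * 23)).take 10, ∀ i ∈ List.range 11,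
    (lact 10 f)^[11 + 1] i = (lact 10 f)^[11] i := by decide +kernel

theorem cf3c_aper_24 : ∀ f ∈ (mon3c.drop (10 * 24)).take 10, ∀ i ∈ List.range 11,
    (lact 10 f)^[11 + 1] i = (lact 10 f)^[11] i := by decide +kernel

theorem cf3c_aper_25 : ∀ f ∈ (mon3c.drop (10 * 25)).take 10, ∀ i ∈ List.range 11,
    (lact 10 f)^[11 + 1] i = (lact 10 f)^[11] i := by decide +kernel

theorem cf3c_aper_26 : ∀ f ∈ (mon3c.drop (10 * 26)).take 10, ∀ i ∈ List.range 11,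
    (lact 10 f)^[11 + 1] i = (lact 10 f)^[11] i := by decide +kernel

theorem cf3c_aper_27 : ∀ f ∈ (mon3c.drop (10 * 27)).take 10, ∀ i ∈ List.range 11,
    (lact 10 f)^[11 + 1] i = (lact 10 f)^[11] i := by decide +kernel

theorem cf3c_aper_28 : ∀ f ∈ (mon3c.drop (10 * 28)).take 10, ∀ i ∈ List.range 11,
    (lact 10 f)^[11 + 1] i = (lact 10 f)^[11] i := by decide +kernel

theorem cf3c_aper_29 : ∀ f ∈ (mon3c.drop (10 * 29)).take 10, ∀ i ∈ List.range 11,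
    (lact 10 f)^[11 + 1] i = (lact 10 f)^[11] i := by decide +kernel

theorem cf3c : CounterFree (kill (two 3 (tab 1 3) (tab 2 3))
    (ev2 3 (tab 1 3) (tab 2 3))) := by
  refine counterFree_of_cert _ 11 10 idx2 idx2_inj idx2_lt mon3c gen3c ?_ ?_ ?_ ?_ ?_
  · decide +kernel
  · decide +kernel
  · decide +kernel
  · exact forall_mem_of_chunks _ mon3c 10 30 (by norm_num) (by decide +kernel) (fun j hj => by
      interval_cases j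
      · exact cf3c_closed_0
      · exact cf3c_closed_1
      · exact cf3c_closed_2
      · exact cf3c_closed_3
      · exact cf3c_closed_4
      · exact cf3c_closed_5
      · exact cf3c_closed_6
      · exact cf3c_closed_7
      · exact cf3c_closed_8
      · exact cf3c_closed_9
      · exact cf3c_closed_10
      · exact cf3c_closed_11
      · exact cf3c_closed_12
      · exact cf3c_closed_13
      · exact cf3c_closed_14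
      · exact cf3c_closed_15
      · exact cf3c_closed_16
      · exact cf3c_closed_17
      · exact cf3c_closed_18
      · exact cf3c_closed_19
      · exact cf3c_closed_20
      · exact cf3c_closed_21
      · exact cf3c_closed_22
      · exact cf3c_closed_23
      · exact cf3c_closed_24
      · exact cf3c_closed_25
      · exact cf3c_closed_26
      · exact cf3c_closed_27
      · exact cf3c_closed_28
      · exact cf3c_closed_29)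
  · exact forall_mem_of_chunks _ mon3c 10 30 (by norm_num) (by decide +kernel) (fun j hj => by
      interval_cases j
      · exact cf3c_aper_0
      · exact cf3c_aper_1
      · exact cf3c_aper_2
      · exact cf3c_aper_3
      · exact cf3c_aper_4
      · exact cf3c_aper_5
      · exact cf3c_aper_6
      · exact cf3c_aper_7
      · exact cf3c_aper_8
      · exact cf3c_aper_9
      · exact cf3c_aper_10
      · exact cf3c_aper_11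
      · exact cf3c_aper_12
      · exact cf3c_aper_13
      · exact cf3c_aper_14
      · exact cf3c_aper_15
      · exact cf3c_aper_16
      · exact cf3c_aper_17
      · exact cf3c_aper_18
      · exact cf3c_aper_19
      · exact cf3c_aper_20
      · exact cf3c_aper_21
      · exact cf3c_aper_22
      · exact cf3c_aper_23
      · exact cf3c_aper_24
      · exact cf3c_aper_25
      · exact cf3c_aper_26
      · exact cf3c_aper_27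
      · exact cf3c_aper_28
      · exact cf3c_aper_29)

end Vale.Agent.Lib.P329.helper28
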