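import Vale.Agent.Lib.P329.helper28.Cert
import Vale.Agent.Lib.P329.helper28.CertTwoB

/-!
# P329 (helper28): two counter-free automata on `ZMod 5`

For a list `S` of pairs `(m, t)`, the automaton `aff1 S` has the states `ZMod 5`; the letter
`(m, t)` acts as `x ↦ m * x + t` if it belongs to `S` and as the identity otherwise.  The events
are the transitions of the letters of `S` that lead to the state `0`.  For the two lists `setA` and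
`setB` the automaton without its events is counter-free; this is checked on the full list of the
transformations of the six states `0, ..., 4` and the sink `5`.
-/

namespace Vale.Agent.Lib.P329.helper28

open Vale.Agent.Lib.P329 Vale.Agent.Lib.P329.helper24

/-- The automaton of the affine maps listed in `S`. -/
def aff1 (S : List (ZMod 5 × ZMod 5)) (x : ZMod 5) (c : ZMod 5 × ZMod 5) : ZMod 5 :=
  if c ∈ S then c.1 * x + c.2 else x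

/-- The events: a letter of `S` leads to `0`. -/
def ev1 (S : List (ZMod 5 × ZMod 5)) (x : ZMod 5) (c : ZMod 5 × ZMod 5) : Bool :=
  decide (c ∈ S ∧ c.1 * x + c.2 = 0)

/-- The numbering of the states of the event-free automaton; the sink is `5`. -/
def idx1 : Option (ZMod 5) → ℕ
  | none => 5
  | some x => x.val

theorem idx1_inj : Function.Injective idx1 := by decide

theorem idx1_lt : ∀ s, idx1 s < 6 := by decide

/-- The list `setA`. -/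
def setA : List (ZMod 5 × ZMod 5) := [(1, 0), (1, 1), (1, 3), (2, 1), (3, 3)]

def genA : List (List ℕ) := [
  [5, 1, 2, 3, 4, 5], [1, 2, 3, 4, 5, 5], [3, 4, 5, 1, 2, 5], [1, 3, 5, 2, 4, 5], [3, 1, 4, 2, 5, 5], [0, 1, 2, 3, 4, 5]]

def monA : List (List ℕ) := [
  [0, 1, 2, 3, 4, 5], [5, 1, 2, 3, 4, 5], [1, 2, 3, 4, 5, 5], [3, 4, 5, 1, 2, 5], [1, 3, 5, 2, 4, 5], [3, 1, 4, 2, 5, 5],
  [5, 2, 3, 4, 5, 5], [5, 4, 5, 1, 2, 5], [5, 3, 5, 2, 4, 5], [5, 1, 4, 2, 5, 5], [2, 3, 4, 5, 5, 5], [4, 5, 1, 2, 5, 5],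
  [3, 5, 2, 4, 5, 5], [1, 4, 2, 5, 5, 5], [4, 5, 5, 2, 3, 5], [1, 2, 5, 4, 5, 5], [2, 4, 5, 3, 5, 5], [2, 5, 5, 1, 4, 5],
  [4, 1, 5, 5, 2, 5], [3, 2, 5, 5, 4, 5], [4, 2, 5, 3, 5, 5], [2, 1, 5, 4, 5, 5], [5, 3, 4, 5, 5, 5], [5, 5, 1, 2, 5, 5],
  [5, 5, 2, 4, 5, 5], [5, 4, 2, 5, 5, 5], [5, 5, 5, 2, 3, 5], [5, 2, 5, 4, 5, 5], [5, 4, 5, 3, 5, 5], [5, 5, 5, 1, 4, 5],
  [5, 1, 5, 5, 2, 5], [5, 2, 5, 5, 4, 5], [5, 2, 5, 3, 5, 5], [5, 1, 5, 4, 5, 5], [3, 4, 5, 5, 5, 5], [5, 1, 2, 5, 5, 5],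
  [5, 2, 4, 5, 5, 5], [4, 2, 5, 5, 5, 5], [5, 5, 2, 3, 5, 5], [2, 5, 4, 5, 5, 5], [4, 5, 3, 5, 5, 5], [5, 5, 1, 4, 5, 5],
  [1, 5, 5, 2, 5, 5], [2, 5, 5, 4, 5, 5], [2, 5, 3, 5, 5, 5], [1, 5, 4, 5, 5, 5], [5, 5, 5, 3, 4, 5], [2, 5, 5, 5, 1, 5],
  [4, 5, 5, 5, 2, 5], [5, 5, 5, 4, 2, 5], [2, 3, 5, 5, 5, 5], [4, 5, 5, 2, 5, 5], [3, 5, 5, 4, 5, 5], [1, 4, 5, 5, 5, 5],
  [5, 2, 5, 1, 5, 5], [5, 4, 5, 2, 5, 5], [3, 5, 5, 2, 5, 5], [4, 5, 5, 1, 5, 5], [5, 2, 5, 5, 3, 5], [2, 4, 5, 5, 5, 5],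
  [4, 3, 5, 5, 5, 5], [5, 1, 5, 5, 4, 5], [1, 5, 5, 5, 2, 5], [2, 5, 5, 5, 4, 5], [5, 3, 5, 4, 5, 5], [2, 5, 5, 1, 5, 5],
  [3, 2, 5, 5, 5, 5], [4, 1, 5, 5, 5, 5], [5, 4, 5, 5, 5, 5], [5, 2, 5, 5, 5, 5], [5, 5, 4, 5, 5, 5], [5, 5, 3, 5, 5, 5],
  [5, 5, 5, 2, 5, 5], [5, 5, 5, 4, 5, 5], [5, 5, 5, 5, 1, 5], [5, 5, 5, 5, 2, 5], [5, 3, 5, 5, 5, 5], [5, 5, 5, 1, 5, 5],
  [5, 5, 5, 5, 4, 5], [5, 1, 5, 5, 5, 5], [4, 5, 5, 5, 5, 5], [1, 2, 5, 5, 5, 5], [2, 5, 5, 5, 5, 5], [5, 2, 3, 5, 5, 5],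
  [5, 1, 4, 5, 5, 5], [5, 5, 2, 5, 5, 5], [5, 5, 3, 4, 5, 5], [5, 5, 4, 2, 5, 5], [3, 5, 5, 5, 5, 5], [2, 5, 1, 5, 5, 5],
  [4, 5, 2, 5, 5, 5], [5, 5, 1, 5, 5, 5], [2, 5, 5, 3, 5, 5], [1, 5, 5, 4, 5, 5], [3, 5, 4, 5, 5, 5], [1, 5, 5, 5, 5, 5],
  [5, 5, 5, 1, 2, 5], [5, 5, 5, 2, 4, 5], [3, 5, 5, 5, 2, 5], [5, 5, 5, 5, 3, 5], [4, 5, 5, 5, 1, 5], [5, 5, 5, 3, 5, 5],
  [5, 3, 5, 2, 5, 5], [5, 4, 5, 1, 5, 5], [4, 5, 5, 3, 5, 5], [5, 3, 5, 5, 4, 5], [5, 4, 5, 5, 2, 5], [2, 1, 5, 5, 5, 5],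
  [2, 5, 5, 5, 3, 5], [1, 5, 5, 5, 4, 5], [5, 1, 5, 2, 5, 5], [5, 5, 5, 5, 5, 5], [3, 5, 2, 5, 5, 5], [4, 5, 1, 5, 5, 5],
  [1, 5, 2, 5, 5, 5], [4, 5, 5, 5, 3, 5], [3, 5, 5, 5, 4, 5]]

theorem cfA_closed_0 : ∀ f ∈ (monA.drop (10 * 0)).take 10, ∀ g ∈ genA,
    f.map (lact 5 g) ∈ monA := by decide +kernel

theorem cfA_closed_1 : ∀ f ∈ (monA.drop (10 * 1)).take 10, ∀ g ∈ genA,
    f.map (lact 5 g) ∈ monA := by decide +kernel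

theorem cfA_closed_2 : ∀ f ∈ (monA.drop (10 * 2)).take 10, ∀ g ∈ genA,
    f.map (lact 5 g) ∈ monA := by decide +kernel

theorem cfA_closed_3 : ∀ f ∈ (monA.drop (10 * 3)).take 10, ∀ g ∈ genA,
    f.map (lact 5 g) ∈ monA := by decide +kernel

theorem cfA_closed_4 : ∀ f ∈ (monA.drop (10 * 4)).take 10, ∀ g ∈ genA,
    f.map (lact 5 g) ∈ monA := by decide +kernel

theorem cfA_closed_5 : ∀ f ∈ (monA.drop (10 * 5)).take 10, ∀ g ∈ genA,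
    f.map (lact 5 g) ∈ monA := by decide +kernel

theorem cfA_closed_6 : ∀ f ∈ (monA.drop (10 * 6)).take 10, ∀ g ∈ genA,
    f.map (lact 5 g) ∈ monA := by decide +kernel

theorem cfA_closed_7 : ∀ f ∈ (monA.drop (10 * 7)).take 10, ∀ g ∈ genA,
    f.map (lact 5 g) ∈ monA := by decide +kernel

theorem cfA_closed_8 : ∀ f ∈ (monA.drop (10 * 8)).take 10, ∀ g ∈ genA,
    f.map (lact 5 g) ∈ monA := by decide +kernel

theorem cfA_closed_9 : ∀ f ∈ (monA.drop (10 * 9)).take 10, ∀ g ∈ genA,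
    f.map (lact 5 g) ∈ monA := by decide +kernel

theorem cfA_closed_10 : ∀ f ∈ (monA.drop (10 * 10)).take 10, ∀ g ∈ genA,
    f.map (lact 5 g) ∈ monA := by decide +kernel

theorem cfA_closed_11 : ∀ f ∈ (monA.drop (10 * 11)).take 10, ∀ g ∈ genA,
    f.map (lact 5 g) ∈ monA := by decide +kernel

theorem cfA_aper_0 : ∀ f ∈ (monA.drop (10 * 0)).take 10, ∀ i ∈ List.range 6,
    (lact 5 f)^[6 + 1] i = (lact 5 f)^[6] i := by decide +kernel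

theorem cfA_aper_1 : ∀ f ∈ (monA.drop (10 * 1)).take 10, ∀ i ∈ List.range 6,
    (lact 5 f)^[6 + 1] i = (lact 5 f)^[6] i := by decide +kernel

theorem cfA_aper_2 : ∀ f ∈ (monA.drop (10 * 2)).take 10, ∀ i ∈ List.range 6,
    (lact 5 f)^[6 + 1] i = (lact 5 f)^[6] i := by decide +kernel

theorem cfA_aper_3 : ∀ f ∈ (monA.drop (10 * 3)).take 10, ∀ i ∈ List.range 6,
    (lact 5 f)^[6 + 1] i = (lact 5 f)^[6] i := by decide +kernel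

theorem cfA_aper_4 : ∀ f ∈ (monA.drop (10 * 4)).take 10, ∀ i ∈ List.range 6,
    (lact 5 f)^[6 + 1] i = (lact 5 f)^[6] i := by decide +kernel

theorem cfA_aper_5 : ∀ f ∈ (monA.drop (10 * 5)).take 10, ∀ i ∈ List.range 6,
    (lact 5 f)^[6 + 1] i = (lact 5 f)^[6] i := by decide +kernel

theorem cfA_aper_6 : ∀ f ∈ (monA.drop (10 * 6)).take 10, ∀ i ∈ List.range 6,
    (lact 5 f)^[6 + 1] i = (lact 5 f)^[6] i := by decide +kernel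

theorem cfA_aper_7 : ∀ f ∈ (monA.drop (10 * 7)).take 10, ∀ i ∈ List.range 6,
    (lact 5 f)^[6 + 1] i = (lact 5 f)^[6] i := by decide +kernel

theorem cfA_aper_8 : ∀ f ∈ (monA.drop (10 * 8)).take 10, ∀ i ∈ List.range 6,
    (lact 5 f)^[6 + 1] i = (lact 5 f)^[6] i := by decide +kernel

theorem cfA_aper_9 : ∀ f ∈ (monA.drop (10 * 9)).take 10, ∀ i ∈ List.range 6,
    (lact 5 f)^[6 + 1] i = (lact 5 f)^[6] i := by decide +kernel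

theorem cfA_aper_10 : ∀ f ∈ (monA.drop (10 * 10)).take 10, ∀ i ∈ List.range 6,
    (lact 5 f)^[6 + 1] i = (lact 5 f)^[6] i := by decide +kernel

theorem cfA_aper_11 : ∀ f ∈ (monA.drop (10 * 11)).take 10, ∀ i ∈ List.range 6,
    (lact 5 f)^[6 + 1] i = (lact 5 f)^[6] i := by decide +kernel

theorem cfA : CounterFree (kill (aff1 setA) (ev1 setA)) := by
  refine counterFree_of_cert _ 6 5 idx1 idx1_inj idx1_lt monA genA ?_ ?_ ?_ ?_ ?_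
  · decide +kernel
  · decide +kernel
  · decide +kernel
  · exact forall_mem_of_chunks _ monA 10 12 (by norm_num) (by decide +kernel) (fun j hj => by
      interval_cases j
      · exact cfA_closed_0
      · exact cfA_closed_1
      · exact cfA_closed_2
      · exact cfA_closed_3
      · exact cfA_closed_4
      · exact cfA_closed_5
      · exact cfA_closed_6
      · exact cfA_closed_7
      · exact cfA_closed_8
      · exact cfA_closed_9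
      · exact cfA_closed_10
      · exact cfA_closed_11)
  · exact forall_mem_of_chunks _ monA 10 12 (by norm_num) (by decide +kernel) (fun j hj => by
      interval_cases j
      · exact cfA_aper_0
      · exact cfA_aper_1
      · exact cfA_aper_2
      · exact cfA_aper_3
      · exact cfA_aper_4
      · exact cfA_aper_5
      · exact cfA_aper_6
      · exact cfA_aper_7
      · exact cfA_aper_8
      · exact cfA_aper_9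
      · exact cfA_aper_10
      · exact cfA_aper_11)

/-- The list `setB`. -/
def setB : List (ZMod 5 × ZMod 5) := [(1, 0), (2, 1), (2, 4), (3, 2), (3, 3)]

def genB : List (List ℕ) := [
  [5, 1, 2, 3, 4, 5], [1, 3, 5, 2, 4, 5], [4, 1, 3, 5, 2, 5], [2, 5, 3, 1, 4, 5], [3, 1, 4, 2, 5, 5], [0, 1, 2, 3, 4, 5]]

def monB : List (List ℕ) := [
  [0, 1, 2, 3, 4, 5], [5, 1, 2, 3, 4, 5], [1, 3, 5, 2, 4, 5], [4, 1, 3, 5, 2, 5], [2, 5, 3, 1, 4, 5], [3, 1, 4, 2, 5, 5],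
  [5, 3, 5, 2, 4, 5], [5, 1, 3, 5, 2, 5], [5, 5, 3, 1, 4, 5], [5, 1, 4, 2, 5, 5], [3, 2, 5, 5, 4, 5], [1, 5, 5, 3, 2, 5],
  [5, 1, 5, 3, 4, 5], [1, 2, 5, 4, 5, 5], [4, 3, 2, 5, 5, 5], [2, 1, 5, 5, 3, 5], [4, 5, 1, 5, 3, 5], [5, 1, 2, 5, 4, 5],
  [5, 5, 2, 3, 4, 5], [3, 5, 5, 1, 2, 5], [3, 5, 1, 5, 4, 5], [4, 5, 2, 1, 5, 5], [2, 3, 4, 5, 5, 5], [5, 1, 2, 3, 5, 5],
  [1, 5, 4, 3, 5, 5], [2, 1, 5, 4, 5, 5], [5, 2, 5, 5, 4, 5], [5, 5, 5, 3, 2, 5], [5, 2, 5, 4, 5, 5], [5, 3, 2, 5, 5, 5],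
  [5, 1, 5, 5, 3, 5], [5, 5, 1, 5, 3, 5], [5, 5, 5, 1, 2, 5], [5, 5, 1, 5, 4, 5], [5, 5, 2, 1, 5, 5], [5, 3, 4, 5, 5, 5],
  [5, 5, 4, 3, 5, 5], [5, 1, 5, 4, 5, 5], [2, 5, 5, 5, 4, 5], [5, 3, 5, 5, 2, 5], [1, 3, 5, 5, 4, 5], [2, 4, 5, 5, 5, 5],
  [3, 5, 5, 2, 5, 5], [1, 5, 5, 5, 3, 5], [5, 5, 5, 1, 3, 5], [1, 5, 5, 2, 4, 5], [5, 1, 5, 5, 2, 5], [5, 5, 5, 1, 4, 5],
  [5, 1, 5, 2, 5, 5], [3, 5, 5, 4, 5, 5], [1, 3, 5, 2, 5, 5], [5, 3, 5, 4, 5, 5], [1, 4, 5, 5, 5, 5], [4, 2, 5, 5, 5, 5],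
  [2, 5, 3, 5, 5, 5], [4, 1, 3, 5, 5, 5], [5, 2, 4, 5, 5, 5], [3, 1, 5, 5, 5, 5], [3, 5, 5, 5, 1, 5], [4, 1, 5, 5, 2, 5],
  [4, 5, 3, 5, 2, 5], [2, 5, 1, 5, 5, 5], [4, 5, 5, 5, 1, 5], [5, 5, 1, 5, 2, 5], [5, 3, 5, 5, 4, 5], [5, 5, 3, 5, 4, 5],
  [5, 1, 4, 5, 5, 5], [5, 5, 5, 2, 4, 5], [5, 5, 3, 5, 2, 5], [5, 5, 4, 2, 5, 5], [2, 5, 5, 3, 5, 5], [2, 5, 5, 1, 4, 5],
  [2, 5, 3, 5, 4, 5], [1, 5, 5, 5, 4, 5], [4, 5, 5, 3, 5, 5], [2, 5, 3, 1, 5, 5], [4, 5, 3, 5, 5, 5], [5, 5, 4, 1, 5, 5],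
  [3, 5, 2, 5, 5, 5], [3, 1, 4, 5, 5, 5], [5, 3, 5, 2, 5, 5], [5, 1, 3, 5, 5, 5], [5, 5, 3, 1, 5, 5], [3, 5, 4, 2, 5, 5],
  [1, 5, 2, 5, 5, 5], [1, 5, 5, 2, 5, 5], [3, 1, 5, 2, 5, 5], [4, 1, 5, 5, 5, 5], [5, 5, 5, 5, 4, 5], [5, 4, 5, 5, 5, 5],
  [5, 5, 5, 2, 5, 5], [5, 5, 5, 5, 3, 5], [5, 5, 5, 4, 5, 5], [5, 2, 5, 5, 5, 5], [5, 5, 3, 5, 5, 5], [5, 1, 5, 5, 5, 5],
  [5, 5, 5, 5, 1, 5], [5, 5, 1, 5, 5, 5], [5, 5, 5, 3, 5, 5], [5, 5, 2, 5, 5, 5], [3, 5, 5, 5, 2, 5], [3, 5, 5, 5, 4, 5],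
  [4, 5, 5, 5, 5, 5], [1, 5, 5, 5, 2, 5], [5, 1, 5, 5, 4, 5], [1, 2, 5, 5, 5, 5], [3, 2, 5, 5, 5, 5], [3, 4, 5, 5, 5, 5],
  [2, 5, 5, 5, 5, 5], [1, 5, 5, 3, 5, 5], [2, 5, 5, 4, 5, 5], [1, 5, 5, 5, 5, 5], [5, 5, 5, 1, 5, 5], [5, 5, 5, 3, 4, 5],
  [1, 5, 5, 4, 5, 5], [5, 3, 5, 5, 5, 5], [5, 1, 5, 3, 5, 5], [2, 3, 5, 5, 5, 5], [4, 3, 5, 5, 5, 5], [3, 5, 5, 5, 5, 5],
  [3, 5, 1, 5, 5, 5], [4, 5, 2, 5, 5, 5], [2, 1, 5, 5, 5, 5], [4, 5, 1, 5, 5, 5], [5, 1, 2, 5, 5, 5], [5, 5, 4, 5, 5, 5],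
  [2, 5, 5, 5, 3, 5], [2, 5, 5, 5, 1, 5], [4, 5, 5, 5, 3, 5], [5, 5, 2, 5, 4, 5], [5, 5, 5, 5, 2, 5], [5, 5, 2, 3, 5, 5],
  [3, 5, 5, 1, 5, 5], [4, 5, 5, 2, 5, 5], [4, 5, 5, 1, 5, 5], [1, 5, 3, 5, 5, 5], [2, 5, 4, 5, 5, 5], [1, 5, 4, 5, 5, 5],
  [5, 5, 5, 5, 5, 5], [1, 3, 5, 5, 5, 5], [4, 5, 5, 5, 2, 5], [2, 5, 5, 1, 5, 5], [3, 5, 4, 5, 5, 5]]

theorem cfB_closed_0 : ∀ f ∈ (monB.drop (10 * 0)).take 10, ∀ g ∈ genB,
    f.map (lact 5 g) ∈ monB := by decide +kernel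

theorem cfB_closed_1 : ∀ f ∈ (monB.drop (10 * 1)).take 10, ∀ g ∈ genB,
    f.map (lact 5 g) ∈ monB := by decide +kernel

theorem cfB_closed_2 : ∀ f ∈ (monB.drop (10 * 2)).take 10, ∀ g ∈ genB,
    f.map (lact 5 g) ∈ monB := by decide +kernel

theorem cfB_closed_3 : ∀ f ∈ (monB.drop (10 * 3)).take 10, ∀ g ∈ genB,
    f.map (lact 5 g) ∈ monB := by decide +kernel

theorem cfB_closed_4 : ∀ f ∈ (monB.drop (10 * 4)).take 10, ∀ g ∈ genB,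
    f.map (lact 5 g) ∈ monB := by decide +kernel

theorem cfB_closed_5 : ∀ f ∈ (monB.drop (10 * 5)).take 10, ∀ g ∈ genB,
    f.map (lact 5 g) ∈ monB := by decide +kernel

theorem cfB_closed_6 : ∀ f ∈ (monB.drop (10 * 6)).take 10, ∀ g ∈ genB,
    f.map (lact 5 g) ∈ monB := by decide +kernel

theorem cfB_closed_7 : ∀ f ∈ (monB.drop (10 * 7)).take 10, ∀ g ∈ genB,
    f.map (lact 5 g) ∈ monB := by decide +kernel

theorem cfB_closed_8 : ∀ f ∈ (monB.drop (10 * 8)).take 10, ∀ g ∈ genB,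
    f.map (lact 5 g) ∈ monB := by decide +kernel

theorem cfB_closed_9 : ∀ f ∈ (monB.drop (10 * 9)).take 10, ∀ g ∈ genB,
    f.map (lact 5 g) ∈ monB := by decide +kernel

theorem cfB_closed_10 : ∀ f ∈ (monB.drop (10 * 10)).take 10, ∀ g ∈ genB,
    f.map (lact 5 g) ∈ monB := by decide +kernel

theorem cfB_closed_11 : ∀ f ∈ (monB.drop (10 * 11)).take 10, ∀ g ∈ genB,
    f.map (lact 5 g) ∈ monB := by decide +kernel

theorem cfB_closed_12 : ∀ f ∈ (monB.drop (10 * 12)).take 10, ∀ g ∈ genB,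
    f.map (lact 5 g) ∈ monB := by decide +kernel

theorem cfB_closed_13 : ∀ f ∈ (monB.drop (10 * 13)).take 10, ∀ g ∈ genB,
    f.map (lact 5 g) ∈ monB := by decide +kernel

theorem cfB_closed_14 : ∀ f ∈ (monB.drop (10 * 14)).take 10, ∀ g ∈ genB,
    f.map (lact 5 g) ∈ monB := by decide +kernel

theorem cfB_aper_0 : ∀ f ∈ (monB.drop (10 * 0)).take 10, ∀ i ∈ List.range 6,
    (lact 5 f)^[6 + 1] i = (lact 5 f)^[6] i := by decide +kernel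

theorem cfB_aper_1 : ∀ f ∈ (monB.drop (10 * 1)).take 10, ∀ i ∈ List.range 6,
    (lact 5 f)^[6 + 1] i = (lact 5 f)^[6] i := by decide +kernel

theorem cfB_aper_2 : ∀ f ∈ (monB.drop (10 * 2)).take 10, ∀ i ∈ List.range 6,
    (lact 5 f)^[6 + 1] i = (lact 5 f)^[6] i := by decide +kernel

theorem cfB_aper_3 : ∀ f ∈ (monB.drop (10 * 3)).take 10, ∀ i ∈ List.range 6,
    (lact 5 f)^[6 + 1] i = (lact 5 f)^[6] i := by decide +kernel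

theorem cfB_aper_4 : ∀ f ∈ (monB.drop (10 * 4)).take 10, ∀ i ∈ List.range 6,
    (lact 5 f)^[6 + 1] i = (lact 5 f)^[6] i := by decide +kernel

theorem cfB_aper_5 : ∀ f ∈ (monB.drop (10 * 5)).take 10, ∀ i ∈ List.range 6,
    (lact 5 f)^[6 + 1] i = (lact 5 f)^[6] i := by decide +kernel

theorem cfB_aper_6 : ∀ f ∈ (monB.drop (10 * 6)).take 10, ∀ i ∈ List.range 6,
    (lact 5 f)^[6 + 1] i = (lact 5 f)^[6] i := by decide +kernel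

theorem cfB_aper_7 : ∀ f ∈ (monB.drop (10 * 7)).take 10, ∀ i ∈ List.range 6,
    (lact 5 f)^[6 + 1] i = (lact 5 f)^[6] i := by decide +kernel

theorem cfB_aper_8 : ∀ f ∈ (monB.drop (10 * 8)).take 10, ∀ i ∈ List.range 6,
    (lact 5 f)^[6 + 1] i = (lact 5 f)^[6] i := by decide +kernel

theorem cfB_aper_9 : ∀ f ∈ (monB.drop (10 * 9)).take 10, ∀ i ∈ List.range 6,
    (lact 5 f)^[6 + 1] i = (lact 5 f)^[6] i := by decide +kernel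

theorem cfB_aper_10 : ∀ f ∈ (monB.drop (10 * 10)).take 10, ∀ i ∈ List.range 6,
    (lact 5 f)^[6 + 1] i = (lact 5 f)^[6] i := by decide +kernel

theorem cfB_aper_11 : ∀ f ∈ (monB.drop (10 * 11)).take 10, ∀ i ∈ List.range 6,
    (lact 5 f)^[6 + 1] i = (lact 5 f)^[6] i := by decide +kernel

theorem cfB_aper_12 : ∀ f ∈ (monB.drop (10 * 12)).take 10, ∀ i ∈ List.range 6,
    (lact 5 f)^[6 + 1] i = (lact 5 f)^[6] i := by decide +kernel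

theorem cfB_aper_13 : ∀ f ∈ (monB.drop (10 * 13)).take 10, ∀ i ∈ List.range 6,
    (lact 5 f)^[6 + 1] i = (lact 5 f)^[6] i := by decide +kernel

theorem cfB_aper_14 : ∀ f ∈ (monB.drop (10 * 14)).take 10, ∀ i ∈ List.range 6,
    (lact 5 f)^[6 + 1] i = (lact 5 f)^[6] i := by decide +kernel

theorem cfB : CounterFree (kill (aff1 setB) (ev1 setB)) := by
  refine counterFree_of_cert _ 6 5 idx1 idx1_inj idx1_lt monB genB ?_ ?_ ?_ ?_ ?_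
  · decide +kernel
  · decide +kernel
  · decide +kernel
  · exact forall_mem_of_chunks _ monB 10 15 (by norm_num) (by decide +kernel) (fun j hj => by
      interval_cases j
      · exact cfB_closed_0
      · exact cfB_closed_1
      · exact cfB_closed_2
      · exact cfB_closed_3
      · exact cfB_closed_4
      · exact cfB_closed_5
      · exact cfB_closed_6
      · exact cfB_closed_7
      · exact cfB_closed_8
      · exact cfB_closed_9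
      · exact cfB_closed_10
      · exact cfB_closed_11
      · exact cfB_closed_12
      · exact cfB_closed_13
      · exact cfB_closed_14)
  · exact forall_mem_of_chunks _ monB 10 15 (by norm_num) (by decide +kernel) (fun j hj => by
      interval_cases j
      · exact cfB_aper_0
      · exact cfB_aper_1
      · exact cfB_aper_2
      · exact cfB_aper_3
      · exact cfB_aper_4
      · exact cfB_aper_5
      · exact cfB_aper_6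
      · exact cfB_aper_7
      · exact cfB_aper_8
      · exact cfB_aper_9
      · exact cfB_aper_10
      · exact cfB_aper_11
      · exact cfB_aper_12
      · exact cfB_aper_13
      · exact cfB_aper_14)

end Vale.Agent.Lib.P329.helper28
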