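import Vale.Agent.Lib.P329.helper28.Cert
import Vale.Agent.Lib.P329.helper28.CertOne

/-!
# P329 (helper28): three counter-free automata on four states

The letters are the maps `f : Fin 4 → Fin 4`; a letter whose list of values `code f` belongs to
the list `S` acts as `f`, every other letter as the identity.  The events are the transitions of
the letters of `S` that lead to the state `0`.  For the three lists `setP`, `setQ`, `setR` (ten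
permutations each) the automaton without its events is counter-free; this is checked on the full
list of the transformations of the five states `0, ..., 3` and the sink `4`.
-/

namespace Vale.Agent.Lib.P329.helper28

open Vale.Agent.Lib.P329 Vale.Agent.Lib.P329.helper24

/-- The list of the values of a map of `Fin 4`. -/
def code (f : Fin 4 → Fin 4) : List ℕ := [(f 0).val, (f 1).val, (f 2).val, (f 3).val]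

/-- The automaton of the maps listed in `S`. -/
def aut4 (S : List (List ℕ)) (i : Fin 4) (f : Fin 4 → Fin 4) : Fin 4 :=
  if code f ∈ S then f i else i

/-- The events: a letter of `S` leads to `0`. -/
def ev4 (S : List (List ℕ)) (i : Fin 4) (f : Fin 4 → Fin 4) : Bool :=
  decide (code f ∈ S ∧ f i = 0)

/-- The numbering of the states of the event-free automaton; the sink is `4`. -/
def idx4 : Option (Fin 4) → ℕ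
  | none => 4
  | some i => i.val

theorem idx4_inj : Function.Injective idx4 := by decide

theorem idx4_lt : ∀ s, idx4 s < 5 := by decide

def setP : List (List ℕ) := [
  [0, 1, 2, 3], [1, 0, 2, 3], [1, 2, 3, 0], [1, 3, 0, 2], [1, 3, 2, 0],
  [2, 0, 3, 1], [2, 1, 0, 3], [2, 1, 3, 0], [2, 3, 1, 0], [3, 1, 2, 0]]

def genP : List (List ℕ) := [
  [4, 1, 2, 3, 4], [1, 4, 2, 3, 4], [1, 2, 3, 4, 4], [1, 3, 4, 2, 4],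
  [1, 3, 2, 4, 4], [2, 4, 3, 1, 4], [2, 1, 4, 3, 4], [2, 1, 3, 4, 4],
  [2, 3, 1, 4, 4], [3, 1, 2, 4, 4], [0, 1, 2, 3, 4]]

def monP : List (List ℕ) := [
  [0, 1, 2, 3, 4], [4, 1, 2, 3, 4], [1, 4, 2, 3, 4], [1, 2, 3, 4, 4], [1, 3, 4, 2, 4], [1, 3, 2, 4, 4],
  [2, 4, 3, 1, 4], [2, 1, 4, 3, 4], [2, 1, 3, 4, 4], [2, 3, 1, 4, 4], [3, 1, 2, 4, 4], [4, 4, 2, 3, 4],
  [4, 2, 3, 4, 4], [4, 3, 4, 2, 4], [4, 3, 2, 4, 4], [4, 4, 3, 1, 4], [4, 1, 4, 3, 4], [4, 1, 3, 4, 4],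
  [4, 3, 1, 4, 4], [4, 1, 2, 4, 4], [2, 4, 3, 4, 4], [3, 4, 4, 2, 4], [3, 4, 2, 4, 4], [1, 4, 4, 3, 4],
  [1, 4, 3, 4, 4], [3, 4, 1, 4, 4], [1, 4, 2, 4, 4], [2, 3, 4, 4, 4], [3, 2, 4, 4, 4], [1, 3, 4, 4, 4],
  [3, 1, 4, 4, 4], [1, 2, 4, 4, 4], [2, 4, 4, 3, 4], [3, 4, 4, 1, 4], [1, 4, 4, 2, 4], [2, 4, 4, 1, 4],
  [2, 1, 4, 4, 4], [2, 4, 1, 4, 4], [4, 4, 3, 4, 4], [4, 4, 4, 2, 4], [4, 4, 2, 4, 4], [4, 4, 4, 3, 4],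
  [4, 4, 1, 4, 4], [4, 3, 4, 4, 4], [4, 2, 4, 4, 4], [4, 1, 4, 4, 4], [4, 4, 4, 1, 4], [3, 4, 4, 4, 4],
  [2, 4, 4, 4, 4], [1, 4, 4, 4, 4], [4, 4, 4, 4, 4]]

theorem cfP : CounterFree (kill (aut4 setP) (ev4 setP)) := by
  refine counterFree_of_cert _ 5 4 idx4 idx4_inj idx4_lt monP genP ?_ ?_ ?_ ?_ ?_
  · decide +kernel
  · decide +kernel
  · decide +kernel
  · decide +kernel
  · decide +kernel

def setQ : List (List ℕ) := [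
  [0, 1, 2, 3], [1, 0, 2, 3], [1, 2, 0, 3], [1, 2, 3, 0], [2, 0, 1, 3],
  [2, 1, 0, 3], [2, 1, 3, 0], [3, 0, 1, 2], [3, 1, 0, 2], [3, 1, 2, 0]]

def genQ : List (List ℕ) := [
  [4, 1, 2, 3, 4], [1, 4, 2, 3, 4], [1, 2, 4, 3, 4], [1, 2, 3, 4, 4],
  [2, 4, 1, 3, 4], [2, 1, 4, 3, 4], [2, 1, 3, 4, 4], [3, 4, 1, 2, 4],
  [3, 1, 4, 2, 4], [3, 1, 2, 4, 4], [0, 1, 2, 3, 4]]

def monQ : List (List ℕ) := [
  [0, 1, 2, 3, 4], [4, 1, 2, 3, 4], [1, 4, 2, 3, 4], [1, 2, 4, 3, 4], [1, 2, 3, 4, 4], [2, 4, 1, 3, 4],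
  [2, 1, 4, 3, 4], [2, 1, 3, 4, 4], [3, 4, 1, 2, 4], [3, 1, 4, 2, 4], [3, 1, 2, 4, 4], [4, 4, 2, 3, 4],
  [4, 2, 4, 3, 4], [4, 2, 3, 4, 4], [4, 4, 1, 3, 4], [4, 1, 4, 3, 4], [4, 1, 3, 4, 4], [4, 4, 1, 2, 4],
  [4, 1, 4, 2, 4], [4, 1, 2, 4, 4], [2, 4, 4, 3, 4], [2, 4, 3, 4, 4], [1, 4, 4, 3, 4], [1, 4, 3, 4, 4],
  [1, 4, 4, 2, 4], [1, 4, 2, 4, 4], [2, 3, 4, 4, 4], [1, 3, 4, 4, 4], [1, 2, 4, 4, 4], [3, 4, 2, 4, 4],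
  [3, 4, 1, 4, 4], [2, 4, 1, 4, 4], [3, 2, 4, 4, 4], [3, 1, 4, 4, 4], [2, 1, 4, 4, 4], [3, 4, 4, 2, 4],
  [3, 4, 4, 1, 4], [2, 4, 4, 1, 4], [4, 4, 4, 3, 4], [4, 4, 3, 4, 4], [4, 4, 4, 2, 4], [4, 4, 2, 4, 4],
  [4, 3, 4, 4, 4], [4, 2, 4, 4, 4], [4, 4, 1, 4, 4], [4, 1, 4, 4, 4], [4, 4, 4, 1, 4], [3, 4, 4, 4, 4],
  [2, 4, 4, 4, 4], [1, 4, 4, 4, 4], [4, 4, 4, 4, 4]]

theorem cfQ : CounterFree (kill (aut4 setQ) (ev4 setQ)) := by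
  refine counterFree_of_cert _ 5 4 idx4 idx4_inj idx4_lt monQ genQ ?_ ?_ ?_ ?_ ?_
  · decide +kernel
  · decide +kernel
  · decide +kernel
  · decide +kernel
  · decide +kernel

def setR : List (List ℕ) := [
  [0, 1, 2, 3], [1, 0, 2, 3], [1, 2, 0, 3], [1, 3, 0, 2], [1, 3, 2, 0],
  [2, 1, 0, 3], [3, 0, 2, 1], [3, 1, 0, 2], [3, 1, 2, 0], [3, 2, 0, 1]]

def genR : List (List ℕ) := [
  [4, 1, 2, 3, 4], [1, 4, 2, 3, 4], [1, 2, 4, 3, 4], [1, 3, 4, 2, 4],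
  [1, 3, 2, 4, 4], [2, 1, 4, 3, 4], [3, 4, 2, 1, 4], [3, 1, 4, 2, 4],
  [3, 1, 2, 4, 4], [3, 2, 4, 1, 4], [0, 1, 2, 3, 4]]

def monR : List (List ℕ) := [
  [0, 1, 2, 3, 4], [4, 1, 2, 3, 4], [1, 4, 2, 3, 4], [1, 2, 4, 3, 4], [1, 3, 4, 2, 4], [1, 3, 2, 4, 4],
  [2, 1, 4, 3, 4], [3, 4, 2, 1, 4], [3, 1, 4, 2, 4], [3, 1, 2, 4, 4], [3, 2, 4, 1, 4], [4, 4, 2, 3, 4],
  [4, 2, 4, 3, 4], [4, 3, 4, 2, 4], [4, 3, 2, 4, 4], [4, 1, 4, 3, 4], [4, 4, 2, 1, 4], [4, 1, 4, 2, 4],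
  [4, 1, 2, 4, 4], [4, 2, 4, 1, 4], [2, 4, 4, 3, 4], [3, 4, 4, 2, 4], [3, 4, 2, 4, 4], [1, 4, 4, 3, 4],
  [1, 4, 4, 2, 4], [1, 4, 2, 4, 4], [2, 4, 4, 1, 4], [3, 2, 4, 4, 4], [1, 2, 4, 4, 4], [2, 3, 4, 4, 4],
  [1, 3, 4, 4, 4], [2, 1, 4, 4, 4], [3, 4, 4, 1, 4], [3, 1, 4, 4, 4], [4, 4, 4, 3, 4], [4, 4, 4, 2, 4],
  [4, 4, 2, 4, 4], [4, 4, 4, 1, 4], [4, 2, 4, 4, 4], [4, 3, 4, 4, 4], [4, 1, 4, 4, 4], [2, 4, 4, 4, 4],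
  [3, 4, 4, 4, 4], [1, 4, 4, 4, 4], [4, 4, 4, 4, 4]]

theorem cfR : CounterFree (kill (aut4 setR) (ev4 setR)) := by
  refine counterFree_of_cert _ 5 4 idx4 idx4_inj idx4_lt monR genR ?_ ?_ ?_ ?_ ?_
  · decide +kernel
  · decide +kernel
  · decide +kernel
  · decide +kernel
  · decide +kernel

end Vale.Agent.Lib.P329.helper28
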